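import Vale.Agent.P287.H631.Pen.Wrap
import Vale.Agent.P287.H925.RankIso

/-!
Three forms vanishing on the scroll, in the notation of the line scroll theorem: complex
independence implies independence over `ℂ(s₀, s₁)`, unless the cubic is rational.
-/

open MvPolynomial Matrix

namespace Vale.Agent.P287.H631

open Vale.Agent.P287 Vale.Agent.P287.H925 Vale.Agent.P287.H925.NetResult

/-- the value of the cubic form at a point of a fibre, over an arbitrary algebra -/
lemma aeval_wvec_cubicOf' (M : Matrix (Fin 4) (Fin 4) R3)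
    (hdeg : ∀ i j, (M i j).IsHomogeneous (1 + H925.wt i + H925.wt j)) {A : Type*} [CommRing A]
    [Algebra ℂ A] (τ : Fin 3 → A) (v : Fin 4 → A) : aeval (wvec τ v) (cubicOf M) =
      v 0 * ((v ∘ perm4) ⬝ᵥ (M.map (aeval τ : R3 →ₐ[ℂ] A) *ᵥ (v ∘ perm4))) := by
  have h1 : ∀ (p : R3) (n : ℕ), p.IsHomogeneous n →
      aeval (wvec τ v) (rename emb p) = v 0 ^ n * aeval τ p := by
    intro p n hp
    rw [aeval_rename]
    have h2 : wvec τ v ∘ emb = fun k => v 0 * τ k := by
      funext k
      fin_cases k <;> rfl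
    rw [h2, aeval_scale hp]
  have h2 : ∀ i, v 0 ^ (H925.wt i) * aeval (wvec τ v) (vv i) = (v ∘ perm4) i := by
    intro i
    fin_cases i
    · change v 0 ^ 0 * aeval (wvec τ v) (X 3) = v 1
      rw [aeval_X, pow_zero, one_mul]; rfl
    · change v 0 ^ 0 * aeval (wvec τ v) (X 4) = v 2
      rw [aeval_X, pow_zero, one_mul]; rfl
    · change v 0 ^ 0 * aeval (wvec τ v) (X 5) = v 3
      rw [aeval_X, pow_zero, one_mul]; rfl
    · change v 0 ^ 1 * aeval (wvec τ v) 1 = v 0
      rw [map_one, pow_one, mul_one]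
  rw [cubicOf_eq]
  simp only [map_sum, map_mul, dotProduct, mulVec, Matrix.map_apply, Finset.mul_sum]
  refine Finset.sum_congr rfl fun i _ => Finset.sum_congr rfl fun j _ => ?_
  rw [h1 _ _ (hdeg i j), ← h2 i, ← h2 j, pow_add, pow_add, pow_one]
  ring

/-- The cubic form in the normal form of `Vale.Agent.P287`. -/
lemma exists_cubicOf (M : Matrix (Fin 4) (Fin 4) R3)
    (hdeg : ∀ i j, (M i j).IsHomogeneous (1 + H925.wt i + H925.wt j)) :
    ∃ B : Fin 3 → Matrix (Fin 6) (Fin 6) ℂ, cubicOf M = cubic B := by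
  refine exists_cubic (cubicOf M) (cubicOf_homogeneous M hdeg) fun y => ?_
  have h1 := aeval_wvec_cubicOf' M hdeg (0 : Fin 3 → ℂ) ![0, y 0, y 1, y 2]
  have h2 : (wvec (0 : Fin 3 → ℂ) ![0, y 0, y 1, y 2] : Fin 6 → ℂ) =
      ![0, 0, 0, y 0, y 1, y 2] := by
    funext i
    fin_cases i <;> simp [wvec]
  rw [h2] at h1
  rw [h1]
  simp

/-- The two descriptions of the quadratic form agree. -/
lemma net_eq_of_cubicOf (M : Matrix (Fin 4) (Fin 4) R3)
    (hdeg : ∀ i j, (M i j).IsHomogeneous (1 + H925.wt i + H925.wt j))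
    (B : Fin 3 → Matrix (Fin 6) (Fin 6) ℂ) (hB : cubicOf M = cubic B)
    {κ : Type*} [Field κ] [Algebra ℂ κ] (τ : Fin 3 → κ) (v : Fin 4 → κ) :
    net B τ (wvec τ v) = (v ∘ perm4) ⬝ᵥ (M.map (aeval τ : R3 →ₐ[ℂ] κ) *ᵥ (v ∘ perm4)) := by
  classical
  have hchar : CharZero κ := charZero_of_injective_algebraMap (algebraMap ℂ κ).injective
  set S : Matrix (Fin 4) (Fin 4) κ := M.map (aeval τ : R3 →ₐ[ℂ] κ) with hS
  set Q : (Fin 4 → κ) → κ := fun v => (v ∘ perm4) ⬝ᵥ (S *ᵥ (v ∘ perm4)) with hQ
  have hqW : ∀ w : Fin 4 → κ, qf ((QR B).map (aeval τ : R3 →ₐ[ℂ] κ)) w = net B τ (wvec τ w) :=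
    fun w => qf_QR B τ w
  have h1 : ∀ v : Fin 4 → κ, v 0 ≠ 0 → net B τ (wvec τ v) = Q v := by
    intro v hv
    have e1 := aeval_wvec_cubicOf' M hdeg τ v
    rw [hB, aeval_cubic_wvec] at e1
    exact mul_left_cancel₀ hv e1
  change net B τ (wvec τ v) = Q v
  by_cases hv : v 0 = 0
  · have e1 := h1 (Pi.single 0 1 + v) (by simp [hv])
    have e2 := h1 (Pi.single 0 1 + (-1 : κ) • v) (by simp [hv])
    have e3 := h1 (Pi.single 0 1) (by simp)
    rw [← hqW, qf_add, hqW] at e1
    rw [← hqW, qf_add, hqW, qf_smul, hqW, pf_smul_right] at e2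
    rw [e3] at e1 e2
    have h2 : Q (Pi.single 0 1 + v) + Q (Pi.single 0 1 + (-1 : κ) • v) =
        2 * Q (Pi.single 0 1) + 2 * Q v := by
      simp only [hQ]
      have c1 : ((Pi.single 0 1 + v : Fin 4 → κ) ∘ perm4) =
          (Pi.single 0 1 : Fin 4 → κ) ∘ perm4 + v ∘ perm4 := rfl
      have c2 : ((Pi.single 0 1 + (-1 : κ) • v : Fin 4 → κ) ∘ perm4) =
          (Pi.single 0 1 : Fin 4 → κ) ∘ perm4 + (-1 : κ) • (v ∘ perm4) := rfl
      rw [c1, c2]
      simp only [Matrix.mulVec_add, dotProduct_add, add_dotProduct, Matrix.mulVec_smul,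
        dotProduct_smul, smul_dotProduct, smul_eq_mul]
      ring
    have e4 := hqW v
    have h3 : 2 * net B τ (wvec τ v) = 2 * Q v := by
      linear_combination e1 + e2 + h2 - e4
    exact mul_left_cancel₀ two_ne_zero h3
  · exact h1 v hv

/-- The plane in the coordinates of `Vale.Agent.P287.H631`. -/
def permW {κ : Type*} [Field κ] (W : Submodule κ (Fin 4 → κ)) : Submodule κ (Fin 4 → κ) :=
  W.comap (LinearMap.funLeft κ κ perm4)

lemma mem_permW {κ : Type*} [Field κ] {W : Submodule κ (Fin 4 → κ)} {v : Fin 4 → κ} :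
    v ∈ permW W ↔ v ∘ perm4 ∈ W := Iff.rfl

lemma finrank_permW {κ : Type*} [Field κ] (W : Submodule κ (Fin 4 → κ)) :
    Module.finrank κ (permW W) = Module.finrank κ W := by
  have h1 : permW W = W.map ((LinearEquiv.funCongrLeft κ κ perm4).symm :
      (Fin 4 → κ) →ₗ[κ] (Fin 4 → κ)) := by
    rw [Submodule.map_equiv_eq_comap_symm]
    rfl
  rw [h1]
  exact LinearEquiv.finrank_map_eq (LinearEquiv.funCongrLeft κ κ perm4).symm W

/-- A row in the notation of the line scroll theorem. -/
lemma row_permW {κ : Type*} [Field κ] {φ : R3 →+* κ} {W : Submodule κ (Fin 4 → κ)} {n : ℕ}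
    {f : Fin 4 → R3} (hf : ScrollForm φ W n f) (w : Fin 4 → κ) (hw : w ∈ permW W) :
    φ (f 3) * w 0 + ∑ i : Fin 3, φ (f i.castSucc) * w i.succ = 0 := by
  have h1 := hf.van _ (mem_permW.mp hw)
  rw [Fin.sum_univ_castSucc] at h1
  rw [← h1, add_comm]
  rfl

lemma row_homog {κ : Type*} [Field κ] {φ : R3 →+* κ} {W : Submodule κ (Fin 4 → κ)} {n : ℕ}
    {f : Fin 4 → R3} (hf : ScrollForm φ W n f) :
    (f 3).IsHomogeneous (n + 1) ∧ ∀ i : Fin 3, (f i.castSucc).IsHomogeneous n := by
  refine ⟨hf.hom 3, fun i => ?_⟩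
  have h1 : H925.wt i.castSucc = 0 := by fin_cases i <;> rfl
  have h2 := hf.hom i.castSucc
  rwa [h1] at h2

/-- The plane is not contained in the plane at infinity, or the cubic is rational. -/
theorem exists_ne_zero_or_rational (M : Matrix (Fin 4) (Fin 4) R3) (hM : M.IsSymm)
    (hdeg : ∀ i j, (M i j).IsHomogeneous (1 + H925.wt i + H925.wt j))
    (hs : SmoothForm (cubicOf M))
    {κ : Type*} [Field κ] (φ : R3 →+* κ) (g : R3) (hg : Irreducible g)
    (hφ : ∀ p, φ p = 0 ↔ g ∣ p) {m : ℕ} (hm : 2 ≤ m) (hgr : g.IsHomogeneous (2 * m + 1))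
    (W : Submodule κ (Fin 4 → κ)) (hW : Module.finrank κ W = 2)
    (hiso : ∀ w ∈ W, w ⬝ᵥ (M.map φ *ᵥ w) = 0) :
    (∃ w ∈ W, w 3 ≠ 0) ∨ RationalHypersurface (cubicOf M) := by
  classical
  by_cases h0 : ∃ w ∈ W, w 3 ≠ 0
  · exact Or.inl h0
  push Not at h0
  right
  set S : Matrix (Fin 3) (Fin 3) R3 := M.submatrix Fin.castSucc Fin.castSucc with hS
  have hw0 : ∀ i : Fin 3, H925.wt i.castSucc = 0 := by decide
  have hSdeg : ∀ i j, (S i j).IsHomogeneous 1 := by
    intro i j
    have := hdeg i.castSucc j.castSucc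
    rwa [hw0, hw0] at this
  have hdetdeg : S.det.IsHomogeneous 3 := by
    rw [Matrix.det_apply]
    refine IsHomogeneous.sum _ _ _ fun σ _ => ?_
    have h1 : (∏ k : Fin 3, S (σ k) k).IsHomogeneous (∑ k : Fin 3, 1) :=
      IsHomogeneous.prod _ _ _ fun k _ => hSdeg _ _
    have h2 : Equiv.Perm.sign σ • (∏ k, S (σ k) k) =
        C ((Equiv.Perm.sign σ : ℤ) : ℂ) * ∏ k, S (σ k) k := by
      rw [Units.smul_def, zsmul_eq_mul]
      simp
    rw [h2]
    have := (isHomogeneous_C (Fin 3) (((Equiv.Perm.sign σ : ℤ) : ℂ))).mul h1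
    rwa [zero_add] at this
  have h2κ : (2 : κ) ≠ 0 := by
    have h1 : φ (C 2) ≠ 0 := by
      intro h0
      have h2 := (hφ _).1 h0
      have h3 : IsUnit (C 2 : R3) := (IsUnit.mk0 (2 : ℂ) two_ne_zero).map C
      exact hg.not_isUnit (isUnit_of_dvd_unit h2 h3)
    have h2 : φ (C 2) = 2 := by
      have : (C 2 : R3) = 2 := map_ofNat C 2
      rw [this, map_ofNat]
    rwa [h2] at h1
  by_cases hdet : S.det = 0
  · -- the quadratic form is isotropic
    have h1 : (S.map (aeval tvec : R3 →ₐ[ℂ] RatK)).det = 0 := by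
      have := AlgHom.map_det (aeval tvec : R3 →ₐ[ℂ] RatK) S
      rw [hdet, map_zero] at this
      exact this.symm
    obtain ⟨u, hu0, hu⟩ := Matrix.exists_mulVec_eq_zero_iff.mpr h1
    refine isotropic_result (cubicOf M) (cubicOf_homogeneous M hdeg) hs (qM M) (fun v => ?_)
      (Fin.cons 0 u) ?_ ?_
    · rw [qM_apply, H925.aeval_wvec_cubicOf M hdeg]
    · intro h2
      apply hu0
      funext i
      exact congrFun h2 i.succ
    · rw [qM_apply]
      have h2 : ((Fin.cons 0 u : Fin 4 → RatK) ∘ perm4) = Fin.snoc u 0 := by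
        funext i
        fin_cases i <;> rfl
      rw [h2]
      simp only [dotProduct, mulVec]
      rw [Fin.sum_univ_castSucc]
      simp only [Fin.snoc_castSucc, Fin.snoc_last, zero_mul, add_zero]
      refine Finset.sum_eq_zero fun i _ => ?_
      rw [Fin.sum_univ_castSucc]
      simp only [Fin.snoc_castSucc, Fin.snoc_last, mul_zero, add_zero]
      have h3 := congrFun hu i
      simp only [mulVec, dotProduct, Pi.zero_apply] at h3
      have h4 : ∑ j : Fin 3, M.map (aeval tvec : R3 →ₐ[ℂ] RatK) i.castSucc j.castSucc * u j = 0 :=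
        h3
      rw [h4, mul_zero]
  · exfalso
    have h1 : ¬ g ∣ S.det :=
      not_dvd_of_lt hgr hg.ne_zero hdetdeg hdet (by omega)
    have h2 : (S.map φ).det ≠ 0 := by
      intro h3
      apply h1
      rw [← hφ]
      have := RingHom.map_det φ S
      rw [this]
      exact h3
    -- two vectors of the plane
    let P : (Fin 4 → κ) →ₗ[κ] (Fin 3 → κ) := LinearMap.funLeft κ κ Fin.castSucc
    set U : Submodule κ (Fin 3 → κ) := W.map P with hU
    have hUr : Module.finrank κ U = 2 := by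
      rw [← hW, hU]
      have hinj : Function.Injective (P.domRestrict W) := by
        rw [injective_iff_map_eq_zero]
        rintro ⟨w, hw⟩ h3
        apply Subtype.ext
        funext i
        refine Fin.lastCases ?_ (fun i => ?_) i
        · exact h0 w hw
        · exact congrFun h3 i
      have h3 := LinearMap.finrank_range_of_inj hinj
      rw [← h3, LinearMap.range_domRestrict]
    let Bf : LinearMap.BilinForm κ (Fin 3 → κ) := Matrix.toBilin' (S.map φ)
    have hnd : Bf.Nondegenerate := Matrix.nondegenerate_toBilin'_iff.mpr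
      ((Matrix.nondegenerate_iff_det_ne_zero).mpr h2)
    have hsymm : (S.map φ).IsSymm := by
      refine Matrix.ext fun i j => ?_
      simp only [Matrix.transpose_apply, Matrix.map_apply, S, Matrix.submatrix_apply]
      rw [hM.apply]
    have hBsymm : ∀ x y, Bf x y = Bf y x := by
      intro x y
      simp only [Bf, Matrix.toBilin'_apply']
      rw [Matrix.dotProduct_mulVec, ← Matrix.mulVec_transpose, hsymm.eq, dotProduct_comm]
    have hrefl : Bf.IsRefl := fun x y h => by rw [hBsymm, h]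
    have hdiag : ∀ u ∈ U, Bf u u = 0 := by
      intro u hu
      obtain ⟨w, hw, rfl⟩ := Submodule.mem_map.mp hu
      have h3 := hiso w hw
      have h4 : w (Fin.last 3) = 0 := h0 w hw
      simp only [dotProduct, mulVec] at h3
      rw [Fin.sum_univ_castSucc, h4, zero_mul, add_zero] at h3
      simp only [Bf, Matrix.toBilin'_apply', dotProduct, mulVec]
      rw [← h3]
      refine Finset.sum_congr rfl fun i _ => ?_
      have h5 : ∑ x : Fin 4, M.map φ i.castSucc x * w x =
          ∑ x : Fin 3, M.map φ i.castSucc x.castSucc * w x.castSucc := by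
        rw [Fin.sum_univ_castSucc, h4, mul_zero, add_zero]
      rw [h5]
      rfl
    have hle : U ≤ Bf.orthogonal U := by
      intro u hu
      rw [LinearMap.BilinForm.mem_orthogonal_iff]
      intro u' hu'
      have h3 := hdiag (u' + u) (U.add_mem hu' hu)
      simp only [map_add, LinearMap.add_apply] at h3
      have h4 : 2 * Bf u' u = 0 := by
        linear_combination h3 - hdiag u hu - hdiag u' hu' - hBsymm u u'
      exact (mul_eq_zero.mp h4).resolve_left h2κ
    have h5 := Submodule.finrank_mono hle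
    rw [LinearMap.BilinForm.finrank_orthogonal hnd, hUr] at h5
    simp at h5

/-- Complex independence is enough, in the notation of the line scroll theorem. -/
theorem rational_or_rows (M : Matrix (Fin 4) (Fin 4) R3) (hM : M.IsSymm)
    (hdeg : ∀ i j, (M i j).IsHomogeneous (1 + H925.wt i + H925.wt j))
    (hs : SmoothForm (cubicOf M))
    {κ : Type} [Field κ] (φ : R3 →+* κ) (g : R3) (hg : Irreducible g)
    (hφ : ∀ p, φ p = 0 ↔ g ∣ p) {m : ℕ} (hm : 2 ≤ m) (hgr : g.IsHomogeneous (2 * m + 1))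
    (W : Submodule κ (Fin 4 → κ)) (hW : Module.finrank κ W = 2)
    (hiso : ∀ w ∈ W, w ⬝ᵥ (M.map φ *ᵥ w) = 0)
    (f : Fin 3 → Fin 4 → R3) (hf : ∀ j, ScrollForm φ W m (f j))
    (hind : ∀ c : Fin 3 → ℂ, (∀ i, ∑ j, C (c j) * f j i = 0) → c = 0)
    {D : ℕ} (ψ : Fin 2 → Fin 4 → R3) (hψ : ∀ j, ScrollForm φ W D (ψ j))
    (hψI : LinearIndependent κ fun (l : Fin 2) (i : Fin 4) => φ (ψ l i)) :
    RationalHypersurface (cubicOf M) ∨
    LinearIndependent RatK (fun j => ((Nm (fun j i => f j i.castSucc) fun j => f j 3).map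
      (aeval tvec : R3 →ₐ[ℂ] RatK)) j) := by
  classical
  rcases exists_ne_zero_or_rational M hM hdeg hs φ g hg hφ hm hgr W hW hiso with h0 | h0
  swap
  · exact Or.inl h0
  obtain ⟨B, hB⟩ := exists_cubicOf M hdeg
  let _ : Algebra ℂ κ := (φ.comp C).toAlgebra
  set τ : Fin 3 → κ := fun i => φ (X i) with hτ
  have hφτ : ∀ p : R3, aeval τ p = φ p := by
    intro p
    have h1 : ((aeval τ : R3 →ₐ[ℂ] κ) : R3 →+* κ) = φ := by
      apply MvPolynomial.ringHom_ext
      · intro r
        change aeval τ (C r) = φ (C r)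
        rw [aeval_C]
        rfl
      · intro i
        change aeval τ (X i) = φ (X i)
        rw [aeval_X]
    exact congrArg (fun h : R3 →+* κ => h p) h1
  have hmap : M.map (aeval τ : R3 →ₐ[ℂ] κ) = M.map φ := by
    ext i j
    exact hφτ _
  have hsm : SmoothForm (cubic B) := hB ▸ hs
  have key := rational_or_indep B hsm (m := m) (by omega) hg.prime hgr τ
    (fun p => by rw [hφτ]; exact hφ p) (permW W) (by rw [finrank_permW, hW])
    (fun w hw => by
      rw [net_eq_of_cubicOf M hdeg B hB, hmap]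
      exact hiso _ (mem_permW.mp hw))
    (by
      obtain ⟨w, hw, hw3⟩ := h0
      refine ⟨w ∘ perm4.symm, ?_, ?_⟩
      · rw [mem_permW]
        have : (w ∘ perm4.symm) ∘ perm4 = w := by
          funext j
          simp
        rwa [this]
      · exact hw3)
    (a := fun j i => f j i.castSucc) (b := fun j => f j 3)
    (fun j i => (row_homog (hf j)).2 i) (fun j => (row_homog (hf j)).1)
    (fun w hw j => by
      simp only [hφτ]
      exact row_permW (hf j) w hw)
    (fun c h1 h2 => by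
      apply hind c
      intro i
      refine Fin.lastCases ?_ (fun i => ?_) i
      · rw [← h1]
        refine Finset.sum_congr rfl fun j _ => ?_
        rw [smul_eq_C_mul]
        rfl
      · rw [← h2 i]
        refine Finset.sum_congr rfl fun j _ => ?_
        rw [smul_eq_C_mul])
    (D := D) (a' := fun j i => ψ j i.castSucc) (b' := fun j => ψ j 3)
    (fun j i => (row_homog (hψ j)).2 i) (fun j => (row_homog (hψ j)).1)
    (fun w hw j => by
      simp only [hφτ]
      exact row_permW (hψ j) w hw)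
    (by
      simp only [hφτ]
      have h1 := hψI.map' (LinearEquiv.funCongrLeft κ κ perm4.symm : (Fin 4 → κ) ≃ₗ[κ] _).toLinearMap
        (LinearEquiv.ker _)
      have h2 : (fun l : Fin 2 => (Fin.cons (φ (ψ l 3)) (fun i : Fin 3 => φ (ψ l i.castSucc)) :
          Fin 4 → κ)) = (LinearEquiv.funCongrLeft κ κ perm4.symm : (Fin 4 → κ) ≃ₗ[κ] _).toLinearMap ∘
            fun (l : Fin 2) (i : Fin 4) => φ (ψ l i) := by
        funext l i
        fin_cases i <;> rfl
      rw [h2]
      exact h1)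
  rcases key with h | h
  · exact Or.inr h
  · left
    rw [hB]
    exact h

end Vale.Agent.P287.H631
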