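import Vale.Agent.P287.H631.Pen.Dvd

/-!
Linear algebra of complex quadratic forms in four variables restricted to kernels of rows.
-/

open MvPolynomial

namespace Vale.Agent.P287.H631

open Vale.Agent.P287

lemma binary_zero (A B C' : ℂ) :
    ∃ α β : ℂ, ∀ x y : ℂ, α * x + β * y = 0 → A * x ^ 2 + B * (x * y) + C' * y ^ 2 = 0 := by
  by_cases hA : A = 0
  · refine ⟨0, 1, fun x y h => ?_⟩
    have hy : y = 0 := by simpa using h
    rw [hA, hy]
    ring
  · obtain ⟨z, hz⟩ := IsAlgClosed.exists_root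
      (Polynomial.C A * Polynomial.X ^ 2 + Polynomial.C B * Polynomial.X + Polynomial.C C')
      (by rw [Polynomial.degree_quadratic hA]; decide)
    have hz' : A * z ^ 2 + B * z + C' = 0 := by
      simpa [Polynomial.IsRoot] using hz
    refine ⟨1, -z, fun x y h => ?_⟩
    have hx : x = z * y := by linear_combination h
    rw [hx]
    linear_combination y ^ 2 * hz'

lemma exists_others (a b : Fin 4) (hab : a ≠ b) :
    ∃ c d : Fin 4, ∀ (X : Type) (_ : AddCommMonoid X) (F : Fin 4 → X),
      F a = 0 → F b = 0 → ∑ i, F i = F c + F d := by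
  fin_cases a <;> fin_cases b
  all_goals first
    | exact absurd rfl hab
    | (refine ⟨2, 3, fun X _ F h1 h2 => ?_⟩; rw [Fin.sum_univ_four]; simp_all; done)
    | (refine ⟨1, 3, fun X _ F h1 h2 => ?_⟩; rw [Fin.sum_univ_four]; simp_all; done)
    | (refine ⟨1, 2, fun X _ F h1 h2 => ?_⟩; rw [Fin.sum_univ_four]; simp_all; done)
    | (refine ⟨0, 3, fun X _ F h1 h2 => ?_⟩; rw [Fin.sum_univ_four]; simp_all; done)
    | (refine ⟨0, 2, fun X _ F h1 h2 => ?_⟩; rw [Fin.sum_univ_four]; simp_all; done)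
    | (refine ⟨0, 1, fun X _ F h1 h2 => ?_⟩; rw [Fin.sum_univ_four]; simp_all; done)

/-- On the common kernel of two independent functionals a third one can be chosen on whose kernel
the quadratic form vanishes. -/
theorem exists_functional (Q : Matrix (Fin 4) (Fin 4) ℂ) (r1 r2 : Fin 4 → ℂ) (a b : Fin 4)
    (hab : mn2 r1 r2 a b ≠ 0) :
    ∃ l : Fin 4 → ℂ, ∀ z : Fin 4 → ℂ, ∑ i, r1 i * z i = 0 → ∑ i, r2 i * z i = 0 →
      ∑ i, l i * z i = 0 → qf Q z = 0 := by
  classical
  have hne : a ≠ b := by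
    rintro rfl
    apply hab
    simp [mn2]
  obtain ⟨c, d, hcd⟩ := exists_others a b hne
  have ka : kv r1 r2 a b a = 0 := by
    simp [kv, mn2]
  have kb : kv r1 r2 a b b = 0 := by
    simp [kv, mn2]
  obtain ⟨α, β, hαβ⟩ := binary_zero (qf Q (kv r1 r2 a b c))
    (pf Q (kv r1 r2 a b c) (kv r1 r2 a b d)) (qf Q (kv r1 r2 a b d))
  refine ⟨α • Pi.single c 1 + β • Pi.single d 1, fun z h1 h2 h3 => ?_⟩
  have e1 : α * z c + β * z d = 0 := by
    rw [← h3]
    simp only [Pi.add_apply, Pi.smul_apply, smul_eq_mul, add_mul, Finset.sum_add_distrib]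
    congr 1
    · rw [Finset.sum_eq_single c]
      · simp
      · intro i _ hi
        rw [Pi.single_eq_of_ne hi]
        ring
      · simp
    · rw [Finset.sum_eq_single d]
      · simp
      · intro i _ hi
        rw [Pi.single_eq_of_ne hi]
        ring
      · simp
  have e2 := smul_eq_sum_kv r1 r2 a b z h1 h2
  have e3 : ∑ i, z i • kv r1 r2 a b i = z c • kv r1 r2 a b c + z d • kv r1 r2 a b d :=
    hcd _ _ (fun i => z i • kv r1 r2 a b i) (by simp only [ka, smul_zero])
      (by simp only [kb, smul_zero])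
  have e4 : (mn2 r1 r2 a b) ^ 2 * qf Q z = 0 := by
    rw [← qf_smul, e2, e3, qf_add, qf_smul, qf_smul, pf_smul_left, pf_smul_right]
    have := hαβ (z c) (z d) e1
    linear_combination this
  exact (mul_eq_zero.mp e4).resolve_left (pow_ne_zero 2 hab)

/-- If the restriction of the quadratic form to the kernel of a functional is degenerate, then
it is a product of two functionals. -/
theorem exists_functional' (Q : Matrix (Fin 4) (Fin 4) ℂ) (f : Fin 4 → ℂ) (hf : f ≠ 0)
    (r : Fin 4 → ℂ) (hr : r ≠ 0) (hfr : ∑ i, f i * r i = 0)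
    (hrad : ∀ z : Fin 4 → ℂ, ∑ i, f i * z i = 0 → pf Q r z = 0) :
    ∃ l : Fin 4 → ℂ, ∀ z : Fin 4 → ℂ, ∑ i, f i * z i = 0 →
      ∑ i, l i * z i = 0 → qf Q z = 0 := by
  classical
  obtain ⟨a, ha⟩ := Function.ne_iff.mp hf
  rw [Pi.zero_apply] at ha
  obtain ⟨b, hba, hb⟩ : ∃ b, b ≠ a ∧ r b ≠ 0 := by
    by_contra hcon
    push Not at hcon
    apply hr
    have h1 : ∑ i, f i * r i = f a * r a := by
      rw [Finset.sum_eq_single a]
      · intro b _ hb
        rw [hcon b hb, mul_zero]
      · simp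
    rw [h1] at hfr
    funext i
    by_cases hi : i = a
    · rw [hi]
      exact (mul_eq_zero.mp hfr).resolve_left ha
    · exact hcon i hi
  have hmn : mn2 f (Pi.single b 1) a b ≠ 0 := by
    simp [mn2, Pi.single_eq_of_ne hba.symm, ha]
  obtain ⟨l, hl⟩ := exists_functional Q f (Pi.single b 1) a b hmn
  refine ⟨l - ((∑ i, l i * r i) / r b) • Pi.single b 1, fun z h1 h2 => ?_⟩
  have sb : ∀ z : Fin 4 → ℂ, ∑ i, (Pi.single b (1 : ℂ) : Fin 4 → ℂ) i * z i = z b := by
    intro z
    rw [Finset.sum_eq_single b]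
    · simp
    · intro i _ hi
      rw [Pi.single_eq_of_ne hi, zero_mul]
    · simp
  set z' : Fin 4 → ℂ := z - (z b / r b) • r with hz'
  have e1 : ∑ i, f i * z' i = 0 := by
    have : ∑ i, f i * z' i = ∑ i, f i * z i - (z b / r b) * ∑ i, f i * r i := by
      rw [Finset.mul_sum, ← Finset.sum_sub_distrib]
      exact Finset.sum_congr rfl fun i _ => by
        simp only [hz', Pi.sub_apply, Pi.smul_apply, smul_eq_mul]; ring
    rw [this, h1, hfr]
    ring
  have e2 : z' b = 0 := by
    simp only [hz', Pi.sub_apply, Pi.smul_apply, smul_eq_mul]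
    field_simp
    ring
  have e3 : ∑ i, l i * z' i = 0 := by
    have f1 : ∑ i, l i * z' i = ∑ i, l i * z i - (z b / r b) * ∑ i, l i * r i := by
      rw [Finset.mul_sum, ← Finset.sum_sub_distrib]
      exact Finset.sum_congr rfl fun i _ => by
        simp only [hz', Pi.sub_apply, Pi.smul_apply, smul_eq_mul]; ring
    have f2 : ∑ i, (l - ((∑ i, l i * r i) / r b) • (Pi.single b (1 : ℂ) : Fin 4 → ℂ)) i * z i =
        ∑ i, l i * z i - ((∑ i, l i * r i) / r b) * z b := by
      rw [← sb z, Finset.mul_sum, ← Finset.sum_sub_distrib]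
      exact Finset.sum_congr rfl fun i _ => by
        simp only [Pi.sub_apply, Pi.smul_apply, smul_eq_mul]; ring
    rw [f2] at h2
    rw [f1]
    linear_combination h2
  have e4 := hl z' e1 (by rw [sb, e2]) e3
  have e5 : z = z' + (z b / r b) • r := by
    rw [hz']
    abel
  have e6 := hrad r hfr
  rw [pf_self] at e6
  have e7 : qf Q r = 0 := (mul_eq_zero.mp e6).resolve_left two_ne_zero
  rw [e5, qf_add, e4, qf_smul, e7, pf_smul_right, pf_comm, hrad z' e1]
  ring

end Vale.Agent.P287.H631
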