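import Vale.Agent.P287.Forms

/-!
A totally isotropic complex subspace stays totally isotropic after extension of scalars.
-/

namespace Vale.Agent.P287.H631

open Vale.Agent.P287

theorem ext_isotropic {k F : Type} [Field k] [Field F] [Algebra k F] {n r : ℕ}
    (T : Matrix (Fin r) (Fin n) k) (Q : Matrix (Fin n) (Fin n) k)
    (h : ∀ z : Fin n → k, (∀ j, ∑ i, T j i * z i = 0) → qf Q z = 0) (z : Fin n → F)
    (hz : ∀ j, ∑ i, algebraMap k F (T j i) * z i = 0) : qf Q z = 0 := by
  classical
  let b := Module.Basis.ofVectorSpace k F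
  let zz : Module.Basis.ofVectorSpaceIndex k F → Fin n → k := fun j i => b.repr (z i) j
  have hzz : ∀ j a, ∑ i, T a i * zz j i = 0 := by
    intro j a
    have h1 : b.repr (∑ i, algebraMap k F (T a i) * z i) j = 0 := by
      rw [hz a, map_zero]
      rfl
    rw [map_sum, Finset.sum_apply'] at h1
    rw [← h1]
    refine Finset.sum_congr rfl fun i _ => ?_
    rw [← Algebra.smul_def, map_smul]
    rfl
  let s : Finset (Module.Basis.ofVectorSpaceIndex k F) :=
    Finset.univ.biUnion fun i => (b.repr (z i)).support
  have hzs : z = ∑ j ∈ s, b j • fun i => algebraMap k F (zz j i) := by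
    funext i
    rw [Finset.sum_apply]
    have h1 : ∑ j ∈ s, (b j • fun i => algebraMap k F (zz j i)) i =
        ∑ j ∈ s, b.repr (z i) j • b j := by
      refine Finset.sum_congr rfl fun j _ => ?_
      rw [Pi.smul_apply, smul_eq_mul, mul_comm, ← Algebra.smul_def]
    rw [h1]
    conv_lhs => rw [← b.linearCombination_repr (z i)]
    rw [Finsupp.linearCombination_apply]
    refine Finset.sum_subset ?_ ?_
    · intro j hj
      exact Finset.mem_biUnion.mpr ⟨i, Finset.mem_univ _, hj⟩
    · intro j _ hj
      rw [Finsupp.notMem_support_iff.mp hj]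
      exact zero_smul _ _
  have hq : ∀ j, qf Q (zz j) = 0 := fun j => h _ (hzz j)
  have hp : ∀ j l, pf Q (zz j) (zz l) = 0 := by
    intro j l
    have h1 := h (zz j + zz l) fun a => by
      simp only [Pi.add_apply, mul_add, Finset.sum_add_distrib, hzz, add_zero]
    rw [qf_add, hq, hq, zero_add, zero_add] at h1
    exact h1
  have hq' : ∀ j, qf Q (fun i => algebraMap k F (zz j i)) = 0 := by
    intro j
    rw [qf_algebraMap, hq, map_zero]
  have hp' : ∀ j l, pf Q (fun i => algebraMap k F (zz j i)) (fun i => algebraMap k F (zz l i)) = 0 := by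
    intro j l
    rw [pf_algebraMap, hp, map_zero]
  rw [hzs]
  have key : ∀ t : Finset (Module.Basis.ofVectorSpaceIndex k F),
      qf Q (∑ j ∈ t, b j • fun i => algebraMap k F (zz j i)) = 0 ∧
      ∀ l, pf Q (fun i => algebraMap k F (zz l i))
        (∑ j ∈ t, b j • fun i => algebraMap k F (zz j i)) = 0 := by
    intro t
    induction t using Finset.induction_on with
    | empty => exact ⟨by rw [Finset.sum_empty, qf_zero], fun l => by
        rw [Finset.sum_empty, pf_zero_right]⟩
    | insert a t ha ih =>
      rw [Finset.sum_insert ha]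
      refine ⟨?_, fun l => ?_⟩
      · rw [qf_add, ih.1, qf_smul, hq', pf_smul_left, ih.2]
        simp
      · rw [pf_add_right, ih.2, pf_smul_right, hp']
        simp
  exact (key s).1

end Vale.Agent.P287.H631
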