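import Mathlib

/-!
Dimension count for vectors of polynomials.
-/

open Polynomial

namespace Vale.Agent.P287.H631

variable {K : Type} [Field K]

theorem exists_solution {m r N : ℕ} (g : K[X]) (hg : g.natDegree = 2 * m + 1)
    (r1 r2 : Fin 4 → K[X])
    (hr1 : ∀ v : Fin 4 → K[X], v 0 ∈ degreeLT K m → (∀ i : Fin 3, v i.succ ∈ degreeLT K (m + 1)) →
      ∑ i, r1 i * v i ∈ degreeLT K N)
    (T : Matrix (Fin r) (Fin 4) K) (h : N + r ≤ 2 * m + 1) :
    ∃ v : Fin 4 → K[X], v ≠ 0 ∧ v 0 ∈ degreeLT K m ∧
      (∀ i : Fin 3, v i.succ ∈ degreeLT K (m + 1)) ∧ ∑ i, r1 i * v i = 0 ∧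
      g ∣ ∑ i, r2 i * v i ∧
      ∀ j, T j 0 * (v 0).coeff (m - 1) + ∑ i : Fin 3, T j i.succ * (v i.succ).coeff m = 0 := by
  classical
  have hg0 : g ≠ 0 := by
    rintro rfl
    simp at hg
  let V0 := ↥(degreeLT K m) × (Fin 3 → ↥(degreeLT K (m + 1)))
  let φ : V0 →ₗ[K] (Fin 4 → K[X]) :=
    { toFun := fun u => Fin.cons (u.1 : K[X]) fun i => (u.2 i : K[X])
      map_add' := fun u w => by
        funext i
        exact Fin.cases rfl (fun i => rfl) i
      map_smul' := fun c u => by
        funext i
        exact Fin.cases rfl (fun i => rfl) i }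
  have hφ0 : ∀ u, φ u 0 = u.1 := fun u => rfl
  have hφs : ∀ u (i : Fin 3), φ u i.succ = u.2 i := fun u i => rfl
  let L1 : V0 →ₗ[K] ↥(degreeLT K N) :=
    { toFun := fun u => ⟨∑ i, r1 i * φ u i, hr1 _ u.1.2 fun i => (u.2 i).2⟩
      map_add' := fun u w => by
        apply Subtype.ext
        simp only [map_add, Pi.add_apply, mul_add, Finset.sum_add_distrib]
        rfl
      map_smul' := fun c u => by
        apply Subtype.ext
        simp only [map_smul, Pi.smul_apply, mul_smul_comm, ← Finset.smul_sum]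
        rfl }
  let L2 : V0 →ₗ[K] (K[X] ⧸ Ideal.span {g}) :=
    { toFun := fun u => Ideal.Quotient.mk _ (∑ i, r2 i * φ u i)
      map_add' := fun u w => by
        simp only [map_add, Pi.add_apply, mul_add, Finset.sum_add_distrib]
      map_smul' := fun c u => by
        simp only [map_smul, Pi.smul_apply, mul_smul_comm, ← Finset.smul_sum]
        rfl }
  let L3 : V0 →ₗ[K] (Fin r → K) :=
    { toFun := fun u j => T j 0 * (φ u 0).coeff (m - 1) +
        ∑ i : Fin 3, T j i.succ * (φ u i.succ).coeff m
      map_add' := fun u w => by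
        funext j
        simp only [map_add, Pi.add_apply, coeff_add, mul_add, Finset.sum_add_distrib]
        ring
      map_smul' := fun c u => by
        funext j
        simp only [map_smul, Pi.smul_apply, coeff_smul, smul_eq_mul, RingHom.id_apply, mul_add,
          Finset.mul_sum]
        congr 1
        · ring
        · exact Finset.sum_congr rfl fun i _ => by ring }
  let L := L1.prod (L2.prod L3)
  have hfinQ : Module.Finite K (K[X] ⧸ Ideal.span {g}) :=
    (AdjoinRoot.powerBasis hg0).finite
  have hdimQ : Module.finrank K (K[X] ⧸ Ideal.span {g}) = 2 * m + 1 := by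
    rw [finrank_quotient_span_eq_natDegree, hg]
  have hd : ∀ n, Module.finrank K ↥(degreeLT K n) = n := fun n => by
    rw [(degreeLTEquiv K n).finrank_eq, Module.finrank_fin_fun]
  have hf : ∀ n, Module.Finite K ↥(degreeLT K n) := fun n =>
    Module.Finite.equiv (degreeLTEquiv K n).symm
  have hlt : Module.finrank K (↥(degreeLT K N) × (K[X] ⧸ Ideal.span {g}) × (Fin r → K)) <
      Module.finrank K V0 := by
    rw [Module.finrank_prod, Module.finrank_prod, Module.finrank_prod, hd, hdimQ, hd,
      Module.finrank_fin_fun, Module.finrank_pi_fintype]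
    simp only [hd, Finset.sum_const, Finset.card_univ, Fintype.card_fin, smul_eq_mul]
    omega
  obtain ⟨u, hu, hu0⟩ := (Submodule.ne_bot_iff _).mp (LinearMap.ker_ne_bot_of_finrank_lt hlt :
    LinearMap.ker L ≠ ⊥)
  have hu' : L u = 0 := hu
  have h1 : L1 u = 0 := congrArg Prod.fst hu'
  have h2 : L2 u = 0 := congrArg (fun x => x.2.1) hu'
  have h3 : L3 u = 0 := congrArg (fun x => x.2.2) hu'
  refine ⟨φ u, ?_, u.1.2, fun i => (u.2 i).2, congrArg Subtype.val h1, ?_, fun j => congrFun h3 j⟩
  · intro h0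
    apply hu0
    refine Prod.ext (Subtype.ext ?_) (funext fun i => Subtype.ext ?_)
    · exact congrFun h0 0
    · exact congrFun h0 i.succ
  · exact Ideal.mem_span_singleton.mp (Ideal.Quotient.eq_zero_iff_mem.mp h2)

end Vale.Agent.P287.H631
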