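import Vale.Agent.P287.H631.Pen.Dvd
import Vale.Agent.P287.H631.Pen.Solve
import Vale.Agent.P287.H631.Pen.Ext

/-!
Isotropic vectors over the generic line through a point.
-/

open MvPolynomial

namespace Vale.Agent.P287.H631

open Vale.Agent.P287 Vale.Agent.P287.Theta Vale.Agent.P287.H925

/-- The weights of the rows. -/
def wt : Fin 4 → ℕ := ![1, 0, 0, 0]

/-- The weights of the vectors. -/
def vt : Fin 4 → ℕ := ![0, 1, 1, 1]

lemma wt_le (i : Fin 4) : wt i ≤ 1 := by
  fin_cases i <;> simp [wt]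

lemma wt_add_vt (i : Fin 4) : wt i + vt i = 1 := by
  fin_cases i <;> simp [wt, vt]

/-- The degrees of the matrix of the family of quadratic forms. -/
def HMat (M : Matrix (Fin 4) (Fin 4) R3) : Prop :=
  ∀ i j, (M i j).IsHomogeneous (1 + wt i + wt j)

/-- The degrees of a row. -/
def HRow (D : ℕ) (r : Fin 4 → R3) : Prop := ∀ i, (r i).IsHomogeneous (D + wt i)

/-- There is a homogeneous isotropic vector. -/
def Iso (M : Matrix (Fin 4) (Fin 4) R3) : Prop :=
  ∃ (e : ℕ) (w : Fin 4 → R3), w ≠ 0 ∧ (∀ i, (w i).IsHomogeneous (e + vt i)) ∧ qf M w = 0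

/-- The point `(0 : 0 : 1)`. -/
def e3 : Fin 3 → ℂ := ![0, 0, 1]

section top

variable {m : ℕ}

lemma row_natDegree (hm : 1 ≤ m) {r : Fin 4 → R3} {D : ℕ} (hr : HRow D r)
    {v : Fin 4 → Polynomial FF} (hv : ∀ i, (v i).natDegree ≤ m - wt i) :
    (∑ i, pen (r i) * v i).natDegree ≤ D + m ∧ (∑ i, pen (r i) * v i).coeff (D + m) =
      ∑ i, algebraMap ℂ FF (eval e3 (r i)) * (v i).coeff (m - wt i) := by
  have h : ∀ i, D + m = (D + wt i) + (m - wt i) := fun i => by
    have := wt_le i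
    omega
  constructor
  · refine Polynomial.natDegree_sum_le_of_forall_le _ _ fun i _ => ?_
    refine Polynomial.natDegree_mul_le.trans ?_
    rw [h i]
    exact add_le_add (pen_natDegree (hr i)) (hv i)
  · rw [Polynomial.finsetSum_coeff]
    refine Finset.sum_congr rfl fun i _ => ?_
    rw [h i, Polynomial.coeff_mul_add_eq_of_natDegree_le (pen_natDegree (hr i)) (hv i),
      pen_coeff (hr i)]
    rfl

lemma qf_natDegree (hm : 1 ≤ m) {M : Matrix (Fin 4) (Fin 4) R3} (hM : HMat M)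
    {v : Fin 4 → Polynomial FF} (hv : ∀ i, (v i).natDegree ≤ m - wt i) :
    (qf (M.map pen) v).natDegree ≤ 2 * m + 1 ∧ (qf (M.map pen) v).coeff (2 * m + 1) =
      qf (M.map (eval e3)) (fun i => (v i).coeff (m - wt i)) := by
  have h : ∀ i j, 2 * m + 1 = (1 + wt i + wt j) + ((m - wt i) + (m - wt j)) := fun i j => by
    have := wt_le i
    have := wt_le j
    omega
  have hvv : ∀ i j, (v i * v j).natDegree ≤ (m - wt i) + (m - wt j) := fun i j =>
    Polynomial.natDegree_mul_le.trans (add_le_add (hv i) (hv j))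
  constructor
  · refine Polynomial.natDegree_sum_le_of_forall_le _ _ fun i _ => ?_
    refine Polynomial.natDegree_sum_le_of_forall_le _ _ fun j _ => ?_
    refine Polynomial.natDegree_mul_le.trans ?_
    rw [h i j]
    exact add_le_add (pen_natDegree (hM i j)) (hvv i j)
  · simp only [qf]
    rw [Polynomial.finsetSum_coeff]
    refine Finset.sum_congr rfl fun i _ => ?_
    rw [Polynomial.finsetSum_coeff]
    refine Finset.sum_congr rfl fun j _ => ?_
    rw [h i j]
    have h1 := Polynomial.coeff_mul_add_eq_of_natDegree_le (pen_natDegree (hM i j)) (hvv i j)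
    have h2 := Polynomial.coeff_mul_add_eq_of_natDegree_le (hv i) (hv j)
    rw [h2, pen_coeff (hM i j)] at h1
    exact h1

end top

theorem core_e3 {M : Matrix (Fin 4) (Fin 4) R3} (hM : HMat M) {m : ℕ} (hm : 1 ≤ m) {g : R3}
    (hgp : Prime g) (hg : g.IsHomogeneous (2 * m + 1)) (hge : eval e3 g ≠ 0)
    {r1 r2 : Fin 4 → R3} {D1 d : ℕ} (h1 : HRow D1 r1) (hv : VanOn M r1 r2 g) (a b : Fin 4)
    (hd : (mn2 r1 r2 a b).IsHomogeneous d) (hab : ¬ g ∣ mn2 r1 r2 a b) {N r : ℕ}
    (hN : D1 + m < N ∨ (D1 + m ≤ N ∧ ∀ i, eval e3 (r1 i) = 0))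
    (T : Matrix (Fin r) (Fin 4) ℂ) (hr : N + r ≤ 2 * m + 1)
    (hlead : ∀ v : Fin 4 → Polynomial FF, (∀ i, (v i).natDegree ≤ m - wt i) →
      ∑ i, pen (r1 i) * v i = 0 → pen g ∣ ∑ i, pen (r2 i) * v i →
      (∀ j, ∑ i, algebraMap ℂ FF (T j i) * (v i).coeff (m - wt i) = 0) →
      qf (M.map (eval e3)) (fun i => (v i).coeff (m - wt i)) = 0) :
    ∃ v : Fin 4 → Polynomial FF, v ≠ 0 ∧ qf (M.map pen) v = 0 := by
  classical
  have hgc : (pen g).coeff (2 * m + 1) ≠ 0 := by
    rw [pen_coeff hg]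
    exact (map_ne_zero _).mpr hge
  have hgd : (pen g).natDegree = 2 * m + 1 :=
    le_antisymm (pen_natDegree hg) (Polynomial.le_natDegree_of_ne_zero hgc)
  have hdeg : ∀ v : Fin 4 → Polynomial FF, v 0 ∈ Polynomial.degreeLT FF m →
      (∀ i : Fin 3, v i.succ ∈ Polynomial.degreeLT FF (m + 1)) →
      ∀ i, (v i).natDegree ≤ m - wt i := by
    intro v h0 hs i
    refine Fin.cases ?_ (fun i => ?_) i
    · have h2 := (Polynomial.degree_lt_iff_coeff_zero _ _).mp (Polynomial.mem_degreeLT.mp h0)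
      have h3 : wt 0 = 1 := rfl
      rw [Polynomial.natDegree_le_iff_coeff_eq_zero]
      intro k hk
      exact h2 k (by omega)
    · have h2 := (Polynomial.degree_lt_iff_coeff_zero _ _).mp (Polynomial.mem_degreeLT.mp (hs i))
      have h3 : wt i.succ = 0 := by fin_cases i <;> rfl
      rw [Polynomial.natDegree_le_iff_coeff_eq_zero]
      intro k hk
      exact h2 k (by omega)
  obtain ⟨v, hv0, hv1, hv2, hv3, hv4, hv5⟩ := exists_solution (N := N) (r := r) (m := m) (pen g) hgd
    (fun i => pen (r1 i)) (fun i => pen (r2 i)) (by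
      intro v h0 hs
      have h3 := row_natDegree hm h1 (hdeg v h0 hs)
      rw [Polynomial.mem_degreeLT, Polynomial.degree_lt_iff_coeff_zero]
      intro k hk
      rcases hN with hN | ⟨hN, hN'⟩
      · exact Polynomial.coeff_eq_zero_of_natDegree_lt (by omega)
      · by_cases hk' : k = D1 + m
        · rw [hk', h3.2]
          exact Finset.sum_eq_zero fun i _ => by rw [hN', map_zero, zero_mul]
        · exact Polynomial.coeff_eq_zero_of_natDegree_lt (by omega))
    (T.map (algebraMap ℂ FF)) hr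
  have hvd := hdeg v hv1 hv2
  refine ⟨v, hv0, ?_⟩
  have h3 := hv.pen hg hgp (by omega) a b hd hab v (by rw [hv3]; exact dvd_zero _) hv4
  have h4 := qf_natDegree hm hM hvd
  have h5 := hlead v hvd hv3 hv4 (by
    intro j
    have h6 := hv5 j
    rw [Fin.sum_univ_succ]
    exact h6)
  rw [h5] at h4
  obtain ⟨s, hs⟩ := h3
  by_contra hne
  have hs0 : s ≠ 0 := by
    rintro rfl
    rw [mul_zero] at hs
    exact hne hs
  have hg0 : pen g ≠ 0 := by
    intro h0
    rw [h0] at hgc
    simp at hgc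
  have h6 := h4.1
  rw [hs, Polynomial.natDegree_mul hg0 hs0, hgd] at h6
  obtain ⟨c, rfl⟩ := Polynomial.natDegree_eq_zero.mp (show s.natDegree = 0 by omega)
  have h7 := h4.2
  rw [hs, Polynomial.coeff_mul_C] at h7
  rcases mul_eq_zero.mp h7 with h8 | h8
  · exact hgc h8
  · rw [h8, map_zero] at hs0
    exact hs0 rfl

end Vale.Agent.P287.H631
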