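import Vale.Agent.P287.H631.Pen.Top

/-!
Vanishing of a quadratic form on the common kernel of two linear forms, and its specialisations.
-/

open MvPolynomial

namespace Vale.Agent.P287.H631

open Vale.Agent.P287 Vale.Agent.P287.Theta Vale.Agent.P287.H925

/-- A `2 × 2` minor of two rows. -/
def mn2 {R : Type} [CommRing R] (r1 r2 : Fin 4 → R) (a b : Fin 4) : R :=
  r1 a * r2 b - r1 b * r2 a

/-- The vector in the kernel of two rows, supported on three indices. -/
def kv {R : Type} [CommRing R] (r1 r2 : Fin 4 → R) (a b c : Fin 4) : Fin 4 → R :=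
  mn2 r1 r2 a b • Pi.single c 1 - mn2 r1 r2 c b • Pi.single a 1 - mn2 r1 r2 a c • Pi.single b 1

section

variable {R S : Type} [CommRing R] [CommRing S]

lemma sum_single (r : Fin 4 → R) (c : Fin 4) : ∑ i, r i * (Pi.single c (1 : R) : Fin 4 → R) i = r c := by
  classical
  rw [Finset.sum_eq_single c]
  · simp
  · intro b _ hb
    rw [Pi.single_eq_of_ne hb, mul_zero]
  · simp

lemma row_kv (r r1 r2 : Fin 4 → R) (a b c : Fin 4) :
    ∑ i, r i * kv r1 r2 a b c i =
      mn2 r1 r2 a b * r c - mn2 r1 r2 c b * r a - mn2 r1 r2 a c * r b := by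
  simp only [kv, Pi.sub_apply, Pi.smul_apply, smul_eq_mul, mul_sub, Finset.sum_sub_distrib]
  have h : ∀ (s : R) (d : Fin 4), ∑ i, r i * (s * (Pi.single d (1 : R) : Fin 4 → R) i) = s * r d := by
    intro s d
    rw [← sum_single r d, Finset.mul_sum]
    exact Finset.sum_congr rfl fun i _ => by ring
  rw [h, h, h]

lemma row1_kv (r1 r2 : Fin 4 → R) (a b c : Fin 4) : ∑ i, r1 i * kv r1 r2 a b c i = 0 := by
  rw [row_kv]
  simp only [mn2]
  ring

lemma row2_kv (r1 r2 : Fin 4 → R) (a b c : Fin 4) : ∑ i, r2 i * kv r1 r2 a b c i = 0 := by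
  rw [row_kv]
  simp only [mn2]
  ring

lemma map_kv (φ : R →+* S) (r1 r2 : Fin 4 → R) (a b c : Fin 4) :
    (fun i => φ (kv r1 r2 a b c i)) = kv (fun i => φ (r1 i)) (fun i => φ (r2 i)) a b c := by
  classical
  funext i
  simp only [kv, mn2, Pi.sub_apply, Pi.smul_apply, smul_eq_mul, map_sub, map_mul, Pi.single_apply]
  congr 1
  · congr 1
    · congr 1
      split_ifs <;> simp
    · congr 1
      split_ifs <;> simp
  · congr 1
    split_ifs <;> simp

lemma smul_eq_sum_kv (r1 r2 : Fin 4 → R) (a b : Fin 4) (v : Fin 4 → R)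
    (h1 : ∑ i, r1 i * v i = 0) (h2 : ∑ i, r2 i * v i = 0) :
    mn2 r1 r2 a b • v = ∑ c, v c • kv r1 r2 a b c := by
  classical
  have e1 : ∑ c, v c * mn2 r1 r2 c b = 0 := by
    have : ∑ c, v c * mn2 r1 r2 c b = (∑ c, r1 c * v c) * r2 b - (∑ c, r2 c * v c) * r1 b := by
      rw [Finset.sum_mul, Finset.sum_mul, ← Finset.sum_sub_distrib]
      exact Finset.sum_congr rfl fun c _ => by simp only [mn2]; ring
    rw [this, h1, h2]
    ring
  have e2 : ∑ c, v c * mn2 r1 r2 a c = 0 := by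
    have : ∑ c, v c * mn2 r1 r2 a c = (∑ c, r2 c * v c) * r1 a - (∑ c, r1 c * v c) * r2 a := by
      rw [Finset.sum_mul, Finset.sum_mul, ← Finset.sum_sub_distrib]
      exact Finset.sum_congr rfl fun c _ => by simp only [mn2]; ring
    rw [this, h1, h2]
    ring
  funext i
  rw [Finset.sum_apply]
  simp only [kv, Pi.sub_apply, Pi.smul_apply, smul_eq_mul, mul_sub, Finset.sum_sub_distrib]
  have f1 : ∑ c, v c * (mn2 r1 r2 a b * (Pi.single c (1 : R) : Fin 4 → R) i) =
      mn2 r1 r2 a b * v i := by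
    rw [Finset.sum_eq_single i]
    · simp [mul_comm]
    · intro c _ hc
      rw [Pi.single_eq_of_ne hc.symm, mul_zero, mul_zero]
    · simp
  have f2 : ∑ c, v c * (mn2 r1 r2 c b * (Pi.single a (1 : R) : Fin 4 → R) i) = 0 := by
    have : ∑ c, v c * (mn2 r1 r2 c b * (Pi.single a (1 : R) : Fin 4 → R) i) =
        (∑ c, v c * mn2 r1 r2 c b) * (Pi.single a (1 : R) : Fin 4 → R) i := by
      rw [Finset.sum_mul]
      exact Finset.sum_congr rfl fun c _ => by ring
    rw [this, e1, zero_mul]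
  have f3 : ∑ c, v c * (mn2 r1 r2 a c * (Pi.single b (1 : R) : Fin 4 → R) i) = 0 := by
    have : ∑ c, v c * (mn2 r1 r2 a c * (Pi.single b (1 : R) : Fin 4 → R) i) =
        (∑ c, v c * mn2 r1 r2 a c) * (Pi.single b (1 : R) : Fin 4 → R) i := by
      rw [Finset.sum_mul]
      exact Finset.sum_congr rfl fun c _ => by ring
    rw [this, e2, zero_mul]
  rw [f1, f2, f3]
  ring

/-- `q` vanishes modulo `g` on the vectors killed modulo `g` by the two rows. -/
def VanOn (M : Matrix (Fin 4) (Fin 4) R) (r1 r2 : Fin 4 → R) (g : R) : Prop :=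
  ∀ v : Fin 4 → R, g ∣ ∑ i, r1 i * v i → g ∣ ∑ i, r2 i * v i → g ∣ qf M v

theorem VanOn.specialise [IsDomain S] {M : Matrix (Fin 4) (Fin 4) R} {r1 r2 : Fin 4 → R} {g : R}
    (h : VanOn M r1 r2 g) (φ : R →+* S) (hφ : φ g = 0) (a b : Fin 4)
    (hab : φ (mn2 r1 r2 a b) ≠ 0) (v : Fin 4 → S) (h1 : ∑ i, φ (r1 i) * v i = 0)
    (h2 : ∑ i, φ (r2 i) * v i = 0) : qf (M.map φ) v = 0 := by
  have h0 : ∀ x : R, g ∣ x → φ x = 0 := by
    rintro x ⟨y, rfl⟩
    rw [map_mul, hφ, zero_mul]
  have hq : ∀ c, qf (M.map φ) (fun i => φ (kv r1 r2 a b c i)) = 0 := by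
    intro c
    rw [← map_qf']
    exact h0 _ (h _ (by rw [row1_kv]; exact dvd_zero _) (by rw [row2_kv]; exact dvd_zero _))
  have hp : ∀ c d, pf (M.map φ) (fun i => φ (kv r1 r2 a b c i))
      (fun i => φ (kv r1 r2 a b d i)) = 0 := by
    intro c d
    have e1 := h (kv r1 r2 a b c + kv r1 r2 a b d)
      (by simp only [Pi.add_apply, mul_add, Finset.sum_add_distrib, row1_kv, add_zero, dvd_zero])
      (by simp only [Pi.add_apply, mul_add, Finset.sum_add_distrib, row2_kv, add_zero, dvd_zero])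
    have e2 := h0 _ e1
    rw [qf_add, map_add, map_add, map_qf', map_qf', map_pf', hq, hq, zero_add, zero_add] at e2
    exact e2
  have h3 := smul_eq_sum_kv (fun i => φ (r1 i)) (fun i => φ (r2 i)) a b v h1 h2
  have h4 : mn2 (fun i => φ (r1 i)) (fun i => φ (r2 i)) a b = φ (mn2 r1 r2 a b) := by
    simp [mn2]
  have key : ∀ t : Finset (Fin 4),
      qf (M.map φ) (∑ c ∈ t, v c • fun i => φ (kv r1 r2 a b c i)) = 0 ∧
      ∀ l, pf (M.map φ) (fun i => φ (kv r1 r2 a b l i))
        (∑ c ∈ t, v c • fun i => φ (kv r1 r2 a b c i)) = 0 := by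
    intro t
    induction t using Finset.induction_on with
    | empty => exact ⟨by rw [Finset.sum_empty, qf_zero], fun l => by
        rw [Finset.sum_empty, pf_zero_right]⟩
    | insert a' t ha ih =>
      rw [Finset.sum_insert ha]
      refine ⟨?_, fun l => ?_⟩
      · rw [qf_add, ih.1, qf_smul, hq, pf_smul_left, ih.2]
        simp
      · rw [pf_add_right, ih.2, pf_smul_right, hp]
        simp
  have h5 : qf (M.map φ) (mn2 (fun i => φ (r1 i)) (fun i => φ (r2 i)) a b • v) = 0 := by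
    rw [h3]
    have h6 := (key Finset.univ).1
    simp only [map_kv] at h6
    exact h6
  rw [h4, qf_smul] at h5
  exact (mul_eq_zero.mp h5).resolve_left (pow_ne_zero 2 hab)

end

/-- The specialisation to the generic line through `(0 : 0 : 1)`. -/
theorem VanOn.pen {M : Matrix (Fin 4) (Fin 4) R3} {r1 r2 : Fin 4 → R3} {g : R3} {k : ℕ}
    (h : VanOn M r1 r2 g) (hg : g.IsHomogeneous k) (hgp : Prime g) (hk : 2 ≤ k) {d : ℕ}
    (a b : Fin 4) (hd : (mn2 r1 r2 a b).IsHomogeneous d) (hab : ¬ g ∣ mn2 r1 r2 a b)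
    (v : Fin 4 → Polynomial FF) (h1 : H631.pen g ∣ ∑ i, H631.pen (r1 i) * v i)
    (h2 : H631.pen g ∣ ∑ i, H631.pen (r2 i) * v i) : H631.pen g ∣ qf (M.map H631.pen) v := by
  have hpr := prime_cr hg hgp (by omega)
  have hnd := natDegree_cr_ne_zero hg hgp hk
  have hprF : Prime (H631.pen g) := prime_crF hpr hnd
  have hP : (Ideal.span {H631.pen g}).IsPrime := (Ideal.span_singleton_prime hprF.ne_zero).mpr hprF
  let S := Polynomial FF ⧸ Ideal.span {H631.pen g}
  have : IsDomain S := Ideal.Quotient.isDomain _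
  let π : Polynomial FF →+* S := Ideal.Quotient.mk _
  have hπ : ∀ x, π x = 0 ↔ H631.pen g ∣ x := fun x => by
    rw [Ideal.Quotient.eq_zero_iff_mem, Ideal.mem_span_singleton]
  have h3 := h.specialise (π.comp H631.pen) ((hπ _).mpr dvd_rfl) a b (by
    intro h0
    have h4 := (hπ _).mp h0
    exact hab (dvd_of_cr_dvd hg hgp (by omega) hd (dvd_of_crF_dvd hpr hnd h4)))
    (fun i => π (v i)) (by
      have := (hπ _).mpr h1
      rw [map_sum] at this
      simpa using this) (by
      have := (hπ _).mpr h2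
      rw [map_sum] at this
      simpa using this)
  rw [← hπ, map_qf']
  simpa [Matrix.map_map] using h3

end Vale.Agent.P287.H631
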