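import Vale.Agent.P287.H631.Pen.Rank1

/-!
Complex linear independence of the three forms implies linear independence over `ℂ(s₀, s₁)`, or
the quadratic form is isotropic.
-/

open MvPolynomial

namespace Vale.Agent.P287.H631

open Vale.Agent.P287 Vale.Agent.P287.Theta Vale.Agent.P287.H925

section

variable {κ : Type} [Field κ]

lemma finrank_ker_le (r1 r2 : Fin 4 → κ) (a b : Fin 4) (hab : mn2 r1 r2 a b ≠ 0)
    (K : Submodule κ (Fin 4 → κ)) (hK : ∀ v ∈ K, ∑ i, r1 i * v i = 0 ∧ ∑ i, r2 i * v i = 0) :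
    Module.finrank κ K ≤ 2 := by
  classical
  have hne : a ≠ b := by
    rintro rfl
    apply hab
    simp [mn2]
  obtain ⟨c, d, hcd⟩ := exists_others a b hne
  have ka : kv r1 r2 a b a = 0 := by
    simp [kv, mn2]
  have kb : kv r1 r2 a b b = 0 := by
    simp [kv, mn2]
  have h1 : K ≤ Submodule.span κ (Set.range ![kv r1 r2 a b c, kv r1 r2 a b d]) := by
    intro v hv
    obtain ⟨h1, h2⟩ := hK v hv
    have e2 := smul_eq_sum_kv r1 r2 a b v h1 h2
    have e3 : ∑ i, v i • kv r1 r2 a b i = v c • kv r1 r2 a b c + v d • kv r1 r2 a b d :=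
      hcd _ _ (fun i => v i • kv r1 r2 a b i) (by simp only [ka, smul_zero])
        (by simp only [kb, smul_zero])
    have e4 : v = (mn2 r1 r2 a b)⁻¹ • (v c • kv r1 r2 a b c + v d • kv r1 r2 a b d) := by
      rw [← e3, ← e2, smul_smul, inv_mul_cancel₀ hab, one_smul]
    rw [e4]
    refine Submodule.smul_mem _ _ (Submodule.add_mem _ (Submodule.smul_mem _ _ ?_)
      (Submodule.smul_mem _ _ ?_))
    · exact Submodule.subset_span ⟨0, rfl⟩
    · exact Submodule.subset_span ⟨1, rfl⟩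
  exact (Submodule.finrank_mono h1).trans ((finrank_range_le_card _).trans (by simp))

lemma mem_of_rows (W : Submodule κ (Fin 4 → κ)) (hW : Module.finrank κ W = 2) (r1 r2 : Fin 4 → κ)
    (a b : Fin 4) (hab : mn2 r1 r2 a b ≠ 0)
    (hWr : ∀ w ∈ W, ∑ i, r1 i * w i = 0 ∧ ∑ i, r2 i * w i = 0) (v : Fin 4 → κ)
    (h1 : ∑ i, r1 i * v i = 0) (h2 : ∑ i, r2 i * v i = 0) : v ∈ W := by
  let K : Submodule κ (Fin 4 → κ) :=
    { carrier := {v | ∑ i, r1 i * v i = 0 ∧ ∑ i, r2 i * v i = 0}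
      add_mem' := by
        rintro x y ⟨hx1, hx2⟩ ⟨hy1, hy2⟩
        constructor
        · simp only [Pi.add_apply, mul_add, Finset.sum_add_distrib, hx1, hy1, add_zero]
        · simp only [Pi.add_apply, mul_add, Finset.sum_add_distrib, hx2, hy2, add_zero]
      zero_mem' := by simp
      smul_mem' := by
        rintro c x ⟨hx1, hx2⟩
        have h : ∀ r : Fin 4 → κ, ∑ i, r i * (c • x) i = c * ∑ i, r i * x i := by
          intro r
          rw [Finset.mul_sum]
          exact Finset.sum_congr rfl fun i _ => by simp only [Pi.smul_apply, smul_eq_mul]; ring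
        constructor
        · rw [h, hx1, mul_zero]
        · rw [h, hx2, mul_zero] }
  have hle : W ≤ K := fun w hw => hWr w hw
  have h3 := finrank_ker_le r1 r2 a b hab K fun v hv => hv
  have h4 := Submodule.eq_of_le_of_finrank_le hle (by rw [hW]; exact h3)
  rw [h4]
  exact ⟨h1, h2⟩

variable [Algebra ℂ κ]

lemma vanOn_of_scroll {M : Matrix (Fin 4) (Fin 4) R3} {g : R3} (τ : Fin 3 → κ)
    (hτ : ∀ p : R3, aeval τ p = 0 ↔ g ∣ p) (W : Submodule κ (Fin 4 → κ))
    (hW : Module.finrank κ W = 2)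
    (hq : ∀ w ∈ W, qf (M.map (aeval τ : R3 →ₐ[ℂ] κ)) w = 0) {r1 r2 : Fin 4 → R3}
    (h1 : ∀ w ∈ W, ∑ i, aeval τ (r1 i) * w i = 0) (h2 : ∀ w ∈ W, ∑ i, aeval τ (r2 i) * w i = 0)
    (a b : Fin 4) (hab : ¬ g ∣ mn2 r1 r2 a b) : VanOn M r1 r2 g := by
  intro v hv1 hv2
  have e1 : ∑ i, aeval τ (r1 i) * aeval τ (v i) = 0 := by
    have := (hτ _).mpr hv1
    rw [map_sum] at this
    simpa using this
  have e2 : ∑ i, aeval τ (r2 i) * aeval τ (v i) = 0 := by
    have := (hτ _).mpr hv2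
    rw [map_sum] at this
    simpa using this
  have hmem := mem_of_rows W hW (fun i => aeval τ (r1 i)) (fun i => aeval τ (r2 i)) a b (by
    intro h0
    apply hab
    rw [← hτ, ← h0]
    simp [mn2]) (fun w hw => ⟨h1 w hw, h2 w hw⟩) (fun i => aeval τ (v i)) e1 e2
  rw [← hτ]
  have h3 := map_qf' ((aeval τ : R3 →ₐ[ℂ] κ) : R3 →+* κ) M v
  refine Eq.trans h3 ?_
  exact hq _ hmem

end

lemma det_homog {m : ℕ} {f : Fin 3 → Fin 4 → R3} (hf : ∀ j, HRow m (f j)) (s : Fin 3 → Fin 4) :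
    (Matrix.of fun j k => f j (s k)).det.IsHomogeneous (∑ k, (m + wt (s k))) := by
  rw [Matrix.det_apply]
  refine IsHomogeneous.sum _ _ _ fun σ _ => ?_
  have h1 : (∏ k, f (σ k) (s k)).IsHomogeneous (∑ k, (m + wt (s k))) :=
    IsHomogeneous.prod _ _ _ fun k _ => hf (σ k) (s k)
  have h2 : Equiv.Perm.sign σ • (∏ k, Matrix.of (fun j k => f j (s k)) (σ k) k) =
      C ((Equiv.Perm.sign σ : ℤ) : ℂ) * ∏ k, f (σ k) (s k) := by
    rw [Units.smul_def, zsmul_eq_mul]
    simp [Matrix.of_apply]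
  rw [h2]
  have := (isHomogeneous_C (Fin 3) (((Equiv.Perm.sign σ : ℤ) : ℂ))).mul h1
  rwa [zero_add] at this

lemma aeval_tvec_ne {p : R3} {k : ℕ} (hp : p.IsHomogeneous k) (h : aeval tvec p = 0) : p = 0 := by
  rw [← crMap_cr] at h
  apply cr_inj hp
  apply crMap_injective
  rw [h, map_zero]

lemma det_eq_zero {m : ℕ} {f : Fin 3 → Fin 4 → R3} (hf : ∀ j, HRow m (f j))
    (h : ¬ LinearIndependent RatK fun (j : Fin 3) (i : Fin 4) => (aeval tvec (f j i) : RatK))
    (s : Fin 3 → Fin 4) : (Matrix.of fun j k => f j (s k)).det = 0 := by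
  classical
  apply aeval_tvec_ne (det_homog hf s)
  have h1 := AlgHom.map_det (aeval tvec : R3 →ₐ[ℂ] RatK) (Matrix.of fun j k => f j (s k))
  rw [h1]
  rw [Fintype.not_linearIndependent_iff] at h
  obtain ⟨c, hc, i0, hi0⟩ := h
  apply Matrix.exists_vecMul_eq_zero_iff.mp
  refine ⟨c, fun h0 => hi0 (congrFun h0 i0), ?_⟩
  funext k
  have h2 := congrFun hc (s k)
  rw [Finset.sum_apply] at h2
  simpa [Matrix.vecMul, dotProduct] using h2

/-- Extraction of the greatest common divisor of a row. -/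
lemma exists_primitive (f : Fin 4 → R3) (hf : f ≠ 0) : ∃ (c : R3) (f' : Fin 4 → R3),
    (∀ i, f i = c * f' i) ∧ ∀ π : R3, Prime π → ∃ i, ¬ π ∣ f' i := by
  classical
  let _ : StrongNormalizationMonoid R3 := UniqueFactorizationMonoid.strongNormalizationMonoid
  let _ : NormalizedGCDMonoid R3 := UniqueFactorizationMonoid.toNormalizedGCDMonoid R3
  obtain ⟨f', h1, h2⟩ := Finset.extract_gcd f (s := Finset.univ) ⟨0, Finset.mem_univ _⟩
  refine ⟨Finset.univ.gcd f, f', fun i => h1 i (Finset.mem_univ i), fun π hπ => ?_⟩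
  by_contra hcon
  push Not at hcon
  apply hπ.not_isUnit
  apply isUnit_of_dvd_one
  rw [← h2]
  exact Finset.dvd_gcd fun i _ => hcon i

theorem indep_or_iso {M : Matrix (Fin 4) (Fin 4) R3} (hM : HMat M) {m : ℕ} (hm : 1 ≤ m) {g : R3}
    (hgp : Prime g) (hg : g.IsHomogeneous (2 * m + 1)) {κ : Type} [Field κ] [Algebra ℂ κ]
    (τ : Fin 3 → κ) (hτ : ∀ p : R3, aeval τ p = 0 ↔ g ∣ p) (W : Submodule κ (Fin 4 → κ))
    (hW : Module.finrank κ W = 2)
    (hq : ∀ w ∈ W, qf (M.map (aeval τ : R3 →ₐ[ℂ] κ)) w = 0) (hW0 : ∃ w ∈ W, w 0 ≠ 0)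
    {f : Fin 3 → Fin 4 → R3} (hf : ∀ j, HRow m (f j))
    (hfW : ∀ j, ∀ w ∈ W, ∑ i, aeval τ (f j i) * w i = 0)
    (hLI : ∀ c : Fin 3 → ℂ, (∀ i, ∑ j, C (c j) * f j i = 0) → c = 0)
    {D : ℕ} {ψ : Fin 2 → Fin 4 → R3} (hψ : ∀ l, HRow D (ψ l))
    (hψW : ∀ l, ∀ w ∈ W, ∑ i, aeval τ (ψ l i) * w i = 0)
    (hψI : LinearIndependent κ fun (l : Fin 2) (i : Fin 4) => (aeval τ (ψ l i) : κ)) :
    (LinearIndependent RatK fun (j : Fin 3) (i : Fin 4) => (aeval tvec (f j i) : RatK)) ∨
      Iso M := by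
  classical
  by_cases hK : LinearIndependent RatK fun (j : Fin 3) (i : Fin 4) => (aeval tvec (f j i) : RatK)
  · exact Or.inl hK
  right
  have hdet := det_eq_zero hf hK
  have hg0 := hgp.ne_zero
  by_cases h2 : ∃ (j1 j2 : Fin 3) (a b : Fin 4), ¬ g ∣ mn2 (f j1) (f j2) a b
  · obtain ⟨j1, j2, a, b, hab⟩ := h2
    refine rank_two hM hm hgp hg hf hLI hdet (fun v hv => ?_) j1 j2 a b hab
    exact vanOn_of_scroll τ hτ W hW hq (hfW j1) (hfW j2) a b hab v (hv j1) (hv j2)
  push Not at h2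
  -- all minors vanish
  have hsing : ∀ (j : Fin 3) i, ∑ l, (Pi.single j (1 : R3) : Fin 3 → R3) l * f l i = f j i := by
    intro j i
    rw [Finset.sum_eq_single j]
    · simp
    · intro l _ hl
      rw [Pi.single_eq_of_ne hl, zero_mul]
    · simp
  have hdep : ∀ j1 j2 j3, Dep3 (f j1) (f j2) (f j3) := by
    intro j1 j2 j3
    have h1 := Dep3.of_det hdet (Matrix.of ![Pi.single j1 1, Pi.single j2 1, Pi.single j3 1])
    simp only [Matrix.of_apply, Matrix.cons_val_zero, Matrix.cons_val_one, Matrix.cons_val,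
        hsing] at h1
    exact h1
  have hsmall : ∀ j1 j2 a b, a ≠ 0 → b ≠ 0 → mn2 (f j1) (f j2) a b = 0 := by
    intro j1 j2 a b ha hb
    by_contra hne
    have h3 := (hf j1).mn2 (hf j2) a b
    have wa : wt a = 0 := by fin_cases a <;> simp_all [wt]
    have wb : wt b = 0 := by fin_cases b <;> simp_all [wt]
    rw [wa, wb] at h3
    exact not_dvd_of_lt hg hg0 h3 hne (by omega) (h2 j1 j2 a b)
  have hzero0 : ∀ j1 j2 c, mn2 (f j1) (f j2) 0 c = 0 := by
    intro j1 j2 c
    by_cases hc : c = 0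
    · rw [hc]
      simp only [mn2, sub_self]
    have wc : wt c = 0 := by fin_cases c <;> simp_all [wt]
    have hγ : ∀ j1 j2, ∃ γ : ℂ, mn2 (f j1) (f j2) 0 c = C γ * g := by
      intro j1 j2
      have h3 := (hf j1).mn2 (hf j2) 0 c
      have w0 : wt 0 = 1 := rfl
      rw [w0, wc, show m + m + 1 + 0 = 2 * m + 1 by ring] at h3
      exact exists_gamma hg hg0 h3 (h2 j1 j2 0 c)
    choose γ hγ using hγ
    have hrel : ∀ i, C (γ 0 1) * f 2 i = C (γ 2 1) * f 0 i + C (γ 0 2) * f 1 i := by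
      intro i
      have h3 := hdep 0 1 2 0 c i
      rw [hγ, hγ, hγ] at h3
      apply mul_left_cancel₀ hg0
      linear_combination h3
    have h4 := hLI ![- γ 2 1, - γ 0 2, γ 0 1] (by
      intro i
      rw [Fin.sum_univ_three]
      simp only [Matrix.cons_val_zero, Matrix.cons_val_one, Matrix.cons_val, map_neg]
      linear_combination hrel i)
    have e0 : γ 2 1 = 0 := by simpa using congrFun h4 0
    have e1 : γ 0 2 = 0 := by simpa using congrFun h4 1
    have e2 : γ 0 1 = 0 := by simpa using congrFun h4 2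
    have m01 : mn2 (f 0) (f 1) 0 c = 0 := by rw [hγ, e2, C_0, zero_mul]
    have m02 : mn2 (f 0) (f 2) 0 c = 0 := by rw [hγ, e1, C_0, zero_mul]
    have m21 : mn2 (f 2) (f 1) 0 c = 0 := by rw [hγ, e0, C_0, zero_mul]
    have hanti : ∀ x y : Fin 4 → R3, mn2 x y 0 c = - mn2 y x 0 c := by
      intro x y
      simp only [mn2]
      ring
    have hself : ∀ x : Fin 4 → R3, mn2 x x 0 c = 0 := by
      intro x
      simp only [mn2]
      ring
    have m10 : mn2 (f 1) (f 0) 0 c = 0 := by rw [hanti, m01, neg_zero]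
    have m12 : mn2 (f 1) (f 2) 0 c = 0 := by rw [hanti, m21, neg_zero]
    have m20 : mn2 (f 2) (f 0) 0 c = 0 := by rw [hanti, m02, neg_zero]
    fin_cases j1 <;> fin_cases j2
    · exact hself _
    · exact m01
    · exact m02
    · exact m10
    · exact hself _
    · exact m12
    · exact m20
    · exact m21
    · exact hself _
  have hzero : ∀ j1 j2 a b, mn2 (f j1) (f j2) a b = 0 := by
    intro j1 j2 a b
    by_cases ha : a = 0
    · rw [ha]
      exact hzero0 _ _ _
    · by_cases hb : b = 0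
      · rw [hb]
        have h3 : mn2 (f j1) (f j2) a 0 = - mn2 (f j1) (f j2) 0 a := by
          simp only [mn2]
          ring
        rw [h3, hzero0, neg_zero]
      · exact hsmall _ _ _ _ ha hb
  -- the first row
  have hf0 : f 0 ≠ 0 := by
    intro h0
    have h3 := hLI (Pi.single 0 1) (by
      intro i
      rw [Fin.sum_univ_three]
      simp [h0])
    have h4 := congrFun h3 0
    simp at h4
  obtain ⟨c0, f', hff', hprim⟩ := exists_primitive (f 0) hf0
  obtain ⟨i1, hi1⟩ := Function.ne_iff.mp hf0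
  rw [Pi.zero_apply] at hi1
  have hc00 : c0 ≠ 0 := by
    rintro rfl
    apply hi1
    rw [hff', zero_mul]
  obtain ⟨k, hk⟩ := homog_of_mul (hff' i1 ▸ hf 0 i1) (hff' i1 ▸ hi1)
  have hdeg : ∀ i, f 0 i ≠ 0 → ∃ n, m + wt i = k + n ∧ (f' i).IsHomogeneous n := fun i hi =>
    degree_le_of_mul hk (hff' i ▸ hf 0 i) (hff' i ▸ hi)
  -- an entry with positive index
  obtain ⟨i2, hi2, hi20⟩ : ∃ i, i ≠ 0 ∧ f 0 i ≠ 0 := by
    by_contra hcon
    push Not at hcon
    obtain ⟨w, hw, hw0⟩ := hW0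
    have h3 := hfW 0 w hw
    have h4 : f 0 0 ≠ 0 := by
      intro h0
      apply hf0
      funext i
      by_cases hi : i = 0
      · rw [hi, h0]
        rfl
      · rw [hcon i hi]
        rfl
    rw [Finset.sum_eq_single 0 (fun i _ hi => by rw [hcon i hi, map_zero, zero_mul])
      (by simp)] at h3
    rcases mul_eq_zero.mp h3 with h5 | h5
    · rw [hτ] at h5
      have w0 : wt 0 = 1 := rfl
      exact not_dvd_of_lt hg hg0 (hf 0 0) h4 (by rw [w0]; omega) h5
    · exact hw0 h5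
  have hkm : k ≤ m := by
    obtain ⟨n, hn, _⟩ := hdeg i2 hi20
    have : wt i2 = 0 := by fin_cases i2 <;> simp_all [wt]
    omega
  have hf'H : HRow (m - k) f' := by
    intro i
    by_cases hi : f 0 i = 0
    · have h3 : f' i = 0 := by
        have := hff' i
        rw [hi] at this
        exact (mul_eq_zero.mp this.symm).resolve_left hc00
      rw [h3]
      exact isHomogeneous_zero _ _ _
    · obtain ⟨n, hn, hn'⟩ := hdeg i hi
      rwa [show m - k + wt i = n by omega]
  have hk1 : 1 ≤ k := by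
    by_contra hcon
    obtain rfl : k = 0 := by omega
    obtain ⟨c, rfl⟩ : ∃ c, c0 = C c := ⟨c0.coeff 0, by
      rw [← totalDegree_eq_zero_iff_eq_C]
      exact hk.totalDegree hc00⟩
    have hc : c ≠ 0 := by
      rintro rfl
      exact hc00 (map_zero _)
    -- the second row is a multiple of the first
    have h3 : ∀ i j, f' i * f 1 j = f' j * f 1 i := by
      intro i j
      have h4 := hzero 0 1 i j
      simp only [mn2, hff'] at h4
      apply mul_left_cancel₀ hc00
      linear_combination h4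
    have hi1' : f' i1 ≠ 0 := by
      intro h0
      apply hi1
      rw [hff', h0, mul_zero]
    obtain ⟨q, hq⟩ : f' i1 ∣ f 1 i1 := by
      refine ufd_dvd f' hprim _ hi1' _ fun j => ?_
      have := h3 i1 j
      exact ⟨f 1 j, this.symm⟩
    have h5 : ∀ j, f 1 j = f' j * q := by
      intro j
      apply mul_left_cancel₀ hi1'
      rw [h3 i1 j, hq]
      ring
    have hf1 : ∃ j, f 1 j ≠ 0 := by
      by_contra hcon
      push Not at hcon
      have h3 := hLI (Pi.single 1 1) (by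
        intro i
        rw [Fin.sum_univ_three]
        simp [hcon])
      have h4 := congrFun h3 1
      simp at h4
    obtain ⟨j, hj⟩ := hf1
    obtain ⟨n, hn, hn'⟩ := degree_le_of_mul (hf'H j) (h5 j ▸ hf 1 j) (h5 j ▸ hj)
    have hn0 : n = 0 := by omega
    subst hn0
    have hq0 : q ≠ 0 := by
      rintro rfl
      apply hj
      rw [h5, mul_zero]
    obtain ⟨c', rfl⟩ : ∃ c', q = C c' := ⟨q.coeff 0, by
      rw [← totalDegree_eq_zero_iff_eq_C]
      exact hn'.totalDegree hq0⟩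
    have h6 := hLI ![c', -c, 0] (by
      intro i
      rw [Fin.sum_univ_three]
      simp only [Matrix.cons_val_zero, Matrix.cons_val_one, Matrix.cons_val, map_neg, C_0, hff',
        h5]
      ring)
    have h7 := congrFun h6 1
    simp only [Matrix.cons_val_one, Matrix.cons_val_zero, Pi.zero_apply, neg_eq_zero] at h7
    exact hc h7
  have hc0τ : aeval τ c0 ≠ 0 := by
    rw [Ne, hτ]
    exact not_dvd_of_lt hg hg0 hk hc00 (by omega)
  have hf'W : ∀ w ∈ W, ∑ i, aeval τ (f' i) * w i = 0 := by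
    intro w hw
    have h3 := hfW 0 w hw
    have h4 : ∑ i, aeval τ (f 0 i) * w i = aeval τ c0 * ∑ i, aeval τ (f' i) * w i := by
      rw [Finset.mul_sum]
      exact Finset.sum_congr rfl fun i _ => by rw [hff', map_mul]; ring
    rw [h4] at h3
    exact (mul_eq_zero.mp h3).resolve_left hc0τ
  have hi1' : f' i1 ≠ 0 := by
    intro h0
    apply hi1
    rw [hff', h0, mul_zero]
  have hi1τ : aeval τ (f' i1) ≠ 0 := by
    rw [Ne, hτ]
    refine not_dvd_of_lt hg hg0 (hf'H i1) hi1' ?_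
    have := wt_le i1
    omega
  obtain ⟨l, a, b, hab⟩ : ∃ (l : Fin 2) (a b : Fin 4), ¬ g ∣ mn2 f' (ψ l) a b := by
    by_contra hcon
    push Not at hcon
    have h3 : ∀ l a b, aeval τ (f' a) * aeval τ (ψ l b) - aeval τ (f' b) * aeval τ (ψ l a) = 0 := by
      intro l a b
      have h4 := (hτ _).mpr (hcon l a b)
      simpa [mn2] using h4
    rw [Fintype.linearIndependent_iff] at hψI
    have h5 := hψI ![aeval τ (ψ 1 i1), - aeval τ (ψ 0 i1)] (by
      rw [Fin.sum_univ_two]
      funext i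
      simp only [Matrix.cons_val_zero, Matrix.cons_val_one, Pi.add_apply, Pi.smul_apply,
        smul_eq_mul, Pi.zero_apply]
      apply mul_left_cancel₀ hi1τ
      linear_combination (aeval τ (ψ 1 i1)) * h3 0 i1 i - (aeval τ (ψ 0 i1)) * h3 1 i1 i)
    have h6 : aeval τ (ψ 1 i1) = 0 := by simpa using h5 0
    have h7 : ∀ i, aeval τ (ψ 1 i) = 0 := by
      intro i
      have h8 := h3 1 i1 i
      rw [h6, mul_zero, sub_zero] at h8
      exact (mul_eq_zero.mp h8).resolve_left hi1τ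
    have h9 := hψI ![0, 1] (by
      rw [Fin.sum_univ_two]
      funext i
      simp [h7])
    have h10 := h9 1
    simp at h10
  exact rank_one hM hm hgp hg hk1 hkm hf'H (hψ l)
    (vanOn_of_scroll τ hτ W hW hq hf'W (hψW l) a b hab) a b hab hprim

end Vale.Agent.P287.H631
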