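import Vale.Agent.P287.H631.Pen.Rank2
import Vale.Agent.P287.H631.Scale
import Vale.Agent.P287.H631.OddMain

/-!
Rows of rank one: a form of lower degree vanishing on the scroll gives an isotropic vector.
-/

open MvPolynomial

namespace Vale.Agent.P287.H631

open Vale.Agent.P287 Vale.Agent.P287.Theta Vale.Agent.P287.H925

theorem rank_one_e3 {M : Matrix (Fin 4) (Fin 4) R3} (hM : HMat M) {m : ℕ} (hm : 1 ≤ m) {g : R3}
    (hgp : Prime g) (hg : g.IsHomogeneous (2 * m + 1)) (hge : eval e3 g ≠ 0)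
    {f ψ : Fin 4 → R3} {k D : ℕ} (hk : 1 ≤ k) (hkm : k ≤ m) (hf : HRow (m - k) f)
    (hψ : HRow D ψ) (hvan : VanOn M f ψ g) (a b : Fin 4) (hab : ¬ g ∣ mn2 f ψ a b)
    (hfe : (fun i => eval e3 (f i)) ≠ 0)
    (hdeg : k = 1 → ∃ r : Fin 4 → ℂ, r ≠ 0 ∧ ∑ i, eval e3 (f i) * r i = 0 ∧
      ∀ z : Fin 4 → ℂ, ∑ i, eval e3 (f i) * z i = 0 → pf (M.map (eval e3)) r z = 0) :
    Iso M := by
  classical
  have hmn := hf.mn2 hψ a b
  -- functionals
  obtain ⟨n, hn, T, hT⟩ : ∃ (n : ℕ), n ≤ k ∧ ∃ T : Matrix (Fin n) (Fin 4) ℂ,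
      ∀ z : Fin 4 → ℂ, ∑ i, eval e3 (f i) * z i = 0 → (∀ j, ∑ i, T j i * z i = 0) →
        qf (M.map (eval e3)) z = 0 := by
    by_cases hk1 : k = 1
    · obtain ⟨r, hr0, hr1, hr2⟩ := hdeg hk1
      obtain ⟨l, hl⟩ := exists_functional' _ _ hfe r hr0 hr1 hr2
      exact ⟨1, hk, fun _ => l, fun z h1 h2 => hl z h1 (h2 0)⟩
    · obtain ⟨a', ha'⟩ := Function.ne_iff.mp hfe
      rw [Pi.zero_apply] at ha'
      obtain ⟨b', hb'⟩ : ∃ b' : Fin 4, b' ≠ a' := exists_ne a'
      have hmn' : mn2 (fun i => eval e3 (f i)) (Pi.single b' 1) a' b' ≠ 0 := by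
        simpa [mn2, Pi.single_eq_of_ne hb'.symm] using ha'
      obtain ⟨l, hl⟩ := exists_functional (M.map (eval e3)) _ _ a' b' hmn'
      exact ⟨2, by omega, Matrix.of ![Pi.single b' 1, l], fun z h1 h2 => hl z h1 (h2 0) (h2 1)⟩
  apply iso_of_pen hM
  refine core_e3 hM hm hgp hg hge hf hvan a b hmn hab (N := 2 * m - k + 1) (r := n)
    (Or.inl (by omega)) T (by omega) ?_
  intro v hvd h1 h2 h3
  have h4 : ∑ i, algebraMap ℂ FF (eval e3 (f i)) * (v i).coeff (m - wt i) = 0 := by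
    rw [← (row_natDegree hm hf hvd).2, h1, Polynomial.coeff_zero]
  refine ext_isotropic (Matrix.of (Fin.cons (fun i => eval e3 (f i)) T :
      Fin (n + 1) → Fin 4 → ℂ)) _ (fun z hz => hT z ?_ fun j => ?_) _ ?_
  · exact hz 0
  · exact hz j.succ
  · intro j
    refine Fin.cases ?_ (fun j => ?_) j
    · exact h4
    · exact h3 j

/-- The bordered matrix. -/
def bord {R : Type} [CommRing R] (M : Matrix (Fin 4) (Fin 4) R) (f : Fin 4 → R) :
    Matrix (Fin 4 ⊕ Unit) (Fin 4 ⊕ Unit) R :=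
  fun x y => Sum.elim (fun i => Sum.elim (fun j => M i j + M j i) (fun _ => f i) y)
    (fun _ => Sum.elim (fun j => f j) (fun _ => 0) y) x

section

variable {R : Type} [CommRing R] (M : Matrix (Fin 4) (Fin 4) R) (f : Fin 4 → R)

lemma bord11 (i j : Fin 4) : bord M f (Sum.inl i) (Sum.inl j) = M i j + M j i := rfl

lemma bord12 (i : Fin 4) (j : Unit) : bord M f (Sum.inl i) (Sum.inr j) = f i := rfl

lemma bord21 (i : Unit) (j : Fin 4) : bord M f (Sum.inr i) (Sum.inl j) = f j := rfl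

lemma bord22 (i j : Unit) : bord M f (Sum.inr i) (Sum.inr j) = 0 := rfl

end

lemma bord_map {R S : Type} [CommRing R] [CommRing S] (M : Matrix (Fin 4) (Fin 4) R)
    (f : Fin 4 → R) (φ : R →+* S) : (bord M f).map φ = bord (M.map φ) (fun i => φ (f i)) := by
  ext i j
  rcases i with i | i <;> rcases j with j | j <;>
    simp [bord11, bord12, bord21, bord22]

lemma bord_det_homog {M : Matrix (Fin 4) (Fin 4) R3} (hM : HMat M) {m : ℕ} (hm : 1 ≤ m)
    {f : Fin 4 → R3} (hf : HRow (m - 1) f) : (bord M f).det.IsHomogeneous (2 * m + 3) := by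
  classical
  apply homog_of_sg
  intro c hc
  have h1 : sg c (bord M f).det = ((bord M f).map (sg c)).det := by
    rw [AlgHom.map_det]
    rfl
  let p : Fin 4 ⊕ Unit → R3 := Sum.elim (fun i => C c ^ wt i) fun _ => C (c ^ (m - 1) * c⁻¹)
  let q : Fin 4 ⊕ Unit → R3 := Sum.elim (fun i => C c ^ (1 + wt i)) fun _ => C c ^ (m - 1)
  have hcc : (C c⁻¹ : R3) * C c = 1 := by
    rw [← C_mul, inv_mul_cancel₀ hc, C_1]
  have h2 : (bord M f).map (sg c) = Matrix.diagonal p * bord M f * Matrix.diagonal q := by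
    ext1 i j
    rw [Matrix.mul_diagonal, Matrix.diagonal_mul, Matrix.map_apply]
    rcases i with i | i <;> rcases j with j | j
    · simp only [bord11, p, q, Sum.elim_inl, map_add, sg_homog (hM _ _)]
      ring
    · simp only [bord12, p, q, Sum.elim_inl, Sum.elim_inr, sg_homog (hf _)]
      ring
    · simp only [bord21, p, q, Sum.elim_inl, Sum.elim_inr, sg_homog (hf _), C_mul, C_pow]
      have : (C c : R3) ^ (m - 1) * C c⁻¹ * f j * C c ^ (1 + wt j) =
          (C c⁻¹ * C c) * (C c ^ (m - 1 + wt j) * f j) := by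
        rw [pow_add, pow_add]
        ring
      rw [this, hcc, one_mul]
    · simp [bord22]
  rw [h1, h2, Matrix.det_mul, Matrix.det_mul, Matrix.det_diagonal, Matrix.det_diagonal,
    Fintype.prod_sum_type, Fintype.prod_sum_type, Fin.prod_univ_four, Fin.prod_univ_four]
  have w0 : wt 0 = 1 := rfl
  have w1 : wt 1 = 0 := rfl
  have w2 : wt 2 = 0 := rfl
  have w3 : wt 3 = 0 := rfl
  simp only [p, q, Sum.elim_inl, Sum.elim_inr, w0, w1, w2, w3, Finset.univ_unique,
    Finset.prod_singleton, C_mul, C_pow]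
  obtain ⟨m', rfl⟩ : ∃ m', m = m' + 1 := ⟨m - 1, by omega⟩
  rw [Nat.add_sub_cancel]
  have : (C c : R3) ^ 1 * C c ^ 0 * C c ^ 0 * C c ^ 0 * (C c ^ m' * C c⁻¹) * (bord M f).det *
      (C c ^ (1 + 1) * C c ^ (1 + 0) * C c ^ (1 + 0) * C c ^ (1 + 0) * C c ^ m') =
      (C c⁻¹ * C c) * (C c ^ (2 * (m' + 1) + 3) * (bord M f).det) := by
    ring
  rw [this, hcc, one_mul]

lemma bord_singular {M : Matrix (Fin 4) (Fin 4) ℂ} {f : Fin 4 → ℂ} (hf : f ≠ 0)
    (h : (bord M f).det = 0) : ∃ r : Fin 4 → ℂ, r ≠ 0 ∧ ∑ i, f i * r i = 0 ∧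
      ∀ z : Fin 4 → ℂ, ∑ i, f i * z i = 0 → pf M r z = 0 := by
  classical
  obtain ⟨x, hx0, hx⟩ := Matrix.exists_mulVec_eq_zero_iff.mpr h
  have h1 : ∀ i, ∑ j, (M i j + M j i) * x (Sum.inl j) + f i * x (Sum.inr ()) = 0 := by
    intro i
    have := congrFun hx (Sum.inl i)
    simpa [Matrix.mulVec, dotProduct, bord11, bord12, bord21, bord22, Fintype.sum_sum_type] using this
  have h2 : ∑ i, f i * x (Sum.inl i) = 0 := by
    have := congrFun hx (Sum.inr ())
    simpa [Matrix.mulVec, dotProduct, bord11, bord12, bord21, bord22, Fintype.sum_sum_type] using this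
  refine ⟨fun i => x (Sum.inl i), ?_, h2, fun z hz => ?_⟩
  · intro h0
    apply hx0
    obtain ⟨i, hi⟩ := Function.ne_iff.mp hf
    have h3 := h1 i
    have h4 : ∀ j, x (Sum.inl j) = 0 := fun j => congrFun h0 j
    simp only [h4, mul_zero, Finset.sum_const_zero, zero_add] at h3
    have h5 := (mul_eq_zero.mp h3).resolve_left hi
    funext j
    rcases j with j | j
    · exact h4 j
    · exact h5
  · have h3 : pf M (fun i => x (Sum.inl i)) z =
        ∑ i, z i * ∑ j, (M i j + M j i) * x (Sum.inl j) := by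
      simp only [pf, Finset.mul_sum, Algebra.algebraMap_self, RingHom.id_apply]
      rw [← sub_eq_zero, ← Finset.sum_sub_distrib]
      simp only [Fin.sum_univ_four]
      ring
    rw [h3]
    have h4 : ∑ i, z i * ∑ j, (M i j + M j i) * x (Sum.inl j) =
        ∑ i, z i * (- (f i * x (Sum.inr ()))) := by
      refine Finset.sum_congr rfl fun i _ => ?_
      rw [eq_neg_of_add_eq_zero_left (h1 i)]
    rw [h4]
    have h5 : ∑ i, z i * (- (f i * x (Sum.inr ()))) = - x (Sum.inr ()) * ∑ i, f i * z i := by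
      rw [Finset.mul_sum]
      exact Finset.sum_congr rfl fun i _ => by ring
    rw [h5, hz, mul_zero]

lemma exists_point {Δ g : R3} {m : ℕ} (hm : 1 ≤ m) (hgp : Prime g)
    (hg : g.IsHomogeneous (2 * m + 1)) (hΔ : Δ.IsHomogeneous (2 * m + 3)) {f : Fin 4 → R3}
    (hprim : ∀ π : R3, Prime π → ∃ i, ¬ π ∣ f i) :
    ∃ p : Fin 3 → ℂ, eval p Δ = 0 ∧ eval p g ≠ 0 ∧ (fun i => eval p (f i)) ≠ 0 := by
  classical
  by_contra hcon
  push Not at hcon
  have hcon' : ∀ p, eval p Δ = 0 → ∀ i, eval p (g * f i) = 0 := by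
    intro p hp i
    rw [map_mul]
    by_cases hgp' : eval p g = 0
    · rw [hgp', zero_mul]
    · rw [show eval p (f i) = 0 from congrFun (hcon p hp hgp') i, mul_zero]
  obtain ⟨i0, hi0⟩ := hprim g hgp
  have hfi0 : f i0 ≠ 0 := fun h => hi0 (h ▸ dvd_zero _)
  have hΔ0 : Δ ≠ 0 := by
    rintro rfl
    obtain ⟨p, hp⟩ := exists_eval_ne (mul_ne_zero hgp.ne_zero hfi0)
    exact hp (hcon' p (map_zero _) i0)
  have hdvd : ∀ i, ∃ n, Δ ∣ (g * f i) ^ n := by
    intro i
    have h1 : g * f i ∈ (Ideal.span {Δ} : Ideal R3).radical := by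
      rw [← MvPolynomial.vanishingIdeal_zeroLocus_eq_radical (K := ℂ)]
      rw [MvPolynomial.mem_vanishingIdeal_iff]
      intro x hx
      rw [MvPolynomial.mem_zeroLocus_iff] at hx
      have := hx Δ (Ideal.mem_span_singleton_self Δ)
      rw [MvPolynomial.aeval_eq_eval] at this ⊢
      exact hcon' x this i
    obtain ⟨n, hn⟩ := h1
    exact ⟨n, Ideal.mem_span_singleton.mp hn⟩
  obtain ⟨Δ', hΔ', hΔ''⟩ := (FiniteMultiplicity.of_prime_left hgp hΔ0).exists_eq_pow_mul_and_not_dvd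
  have hunit : IsUnit Δ' := by
    by_contra hnu
    have hΔ'0 : Δ' ≠ 0 := by
      rintro rfl
      exact hΔ'' (dvd_zero _)
    obtain ⟨π, hπ, hπd⟩ := WfDvdMonoid.exists_irreducible_factor hnu hΔ'0
    obtain ⟨i, hi⟩ := hprim π hπ.prime
    obtain ⟨n, hn⟩ := hdvd i
    have h1 : π ∣ (g * f i) ^ n := by
      refine (hπd.trans ?_).trans hn
      rw [hΔ']
      exact dvd_mul_left _ _
    rcases hπ.prime.dvd_or_dvd (hπ.prime.dvd_of_dvd_pow h1) with h2 | h2
    · have h3 := (hπ.associated_of_dvd hgp.irreducible h2).symm.dvd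
      exact hΔ'' (h3.trans hπd)
    · exact hi h2
  obtain ⟨c, hc0, hc⟩ := exists_C_of_isUnit hunit
  set n := multiplicity g Δ
  have h1 : (g ^ n * Δ').IsHomogeneous ((2 * m + 1) * n) := by
    have := (hg.pow n).mul (isHomogeneous_C (Fin 3) c)
    rw [add_zero] at this
    rw [hc]
    exact this
  rw [← hΔ'] at h1
  have h2 := hΔ.inj_right h1 hΔ0
  rcases Nat.lt_or_ge n 2 with h3 | h3
  · interval_cases n <;> omega
  · have h4 : (2 * m + 1) * 2 ≤ (2 * m + 1) * n := Nat.mul_le_mul_left _ h3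
    omega

theorem rank_one {M : Matrix (Fin 4) (Fin 4) R3} (hM : HMat M) {m : ℕ} (hm : 1 ≤ m) {g : R3}
    (hgp : Prime g) (hg : g.IsHomogeneous (2 * m + 1))
    {f ψ : Fin 4 → R3} {k D : ℕ} (hk : 1 ≤ k) (hkm : k ≤ m) (hf : HRow (m - k) f)
    (hψ : HRow D ψ) (hvan : VanOn M f ψ g) (a b : Fin 4) (hab : ¬ g ∣ mn2 f ψ a b)
    (hprim : ∀ π : R3, Prime π → ∃ i, ¬ π ∣ f i) : Iso M := by
  classical
  -- the point
  obtain ⟨p, hpg, hpf, hpd⟩ : ∃ p : Fin 3 → ℂ, eval p g ≠ 0 ∧ (fun i => eval p (f i)) ≠ 0 ∧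
      (k = 1 → (bord (M.map (eval p)) (fun i => eval p (f i))).det = 0) := by
    by_cases hk1 : k = 1
    · subst hk1
      obtain ⟨p, h1, h2, h3⟩ := exists_point hm hgp hg (bord_det_homog hM hm hf) hprim
      refine ⟨p, h2, h3, fun _ => ?_⟩
      rw [← bord_map, ← h1, RingHom.map_det]
      rfl
    · obtain ⟨i0, hi0⟩ := hprim g hgp
      have hfi0 : f i0 ≠ 0 := fun h => hi0 (h ▸ dvd_zero _)
      obtain ⟨p, hp⟩ := exists_eval_ne (mul_ne_zero hgp.ne_zero hfi0)
      rw [map_mul] at hp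
      exact ⟨p, left_ne_zero_of_mul hp, fun h => right_ne_zero_of_mul hp (congrFun h i0),
        fun h => absurd h hk1⟩
  have hp0 : p ≠ 0 := by
    rintro rfl
    apply hpg
    have h1 := aeval_smul_of_homog hg (A := ℂ) (0 : ℂ) (0 : Fin 3 → ℂ)
    rw [zero_smul, MvPolynomial.aeval_eq_eval] at h1
    have h2 : eval (0 : Fin 3 → ℂ) g = 0 ^ (2 * m + 1) * eval (0 : Fin 3 → ℂ) g := h1
    rw [h2, pow_succ]
    ring
  obtain ⟨A, hA, hAp⟩ := exists_move hp0
  have hfA : (fun i => eval e3 (linr A (f i))) = fun i => eval p (f i) := by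
    funext i
    exact eval_linr hAp _
  have hMA : (M.map (linr A)).map (eval e3) = M.map (eval p) := by
    ext i j
    exact eval_linr hAp _
  apply iso_of_linr hA
  refine rank_one_e3 (hM.linr A) hm (g := linr A g) ((prime_lin hA).mpr hgp)
    (lin_homogeneous A hg) (by rw [eval_linr hAp]; exact hpg) (f := fun i => linr A (f i))
    (ψ := fun i => linr A (ψ i)) hk hkm (hf.linr A) (hψ.linr A) (hvan.linr hA) a b ?_ ?_ ?_
  · rw [map_mn2, linr_dvd hA]
    exact hab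
  · rw [hfA]
    exact hpf
  · intro hk1
    have h1 := bord_singular hpf (hpd hk1)
    rw [hMA]
    simp only [eval_linr hAp]
    exact h1

end Vale.Agent.P287.H631
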