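import Vale.Agent.P287.H631.Pen.Transfer
import Vale.Agent.P287.H631.Pen.Alg
import Vale.Agent.P287.H631.OnCurve

/-!
Three rows of rank two.
-/

open MvPolynomial

namespace Vale.Agent.P287.H631

open Vale.Agent.P287 Vale.Agent.P287.Theta Vale.Agent.P287.H925

/-- All `3 × 3` minors vanish. -/
def Dep3 {R : Type} [CommRing R] (x y z : Fin 4 → R) : Prop :=
  ∀ a b c, mn2 x y a b * z c = mn2 z y a b * x c + mn2 x z a b * y c

lemma Dep3.of_det {R : Type} [CommRing R] {f : Fin 3 → Fin 4 → R}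
    (h : ∀ s : Fin 3 → Fin 4, (Matrix.of fun j k => f j (s k)).det = 0)
    (α : Matrix (Fin 3) (Fin 3) R) :
    Dep3 (fun i => ∑ j, α 0 j * f j i) (fun i => ∑ j, α 1 j * f j i)
      (fun i => ∑ j, α 2 j * f j i) := by
  intro a b c
  have h1 := h ![a, b, c]
  have h2 : (α * (Matrix.of fun j k => f j (![a, b, c] k))).det = 0 := by
    rw [Matrix.det_mul, h1, mul_zero]
  rw [Matrix.det_fin_three] at h2
  simp only [Matrix.mul_apply, Matrix.of_apply, Matrix.cons_val_zero, Matrix.cons_val_one,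
    Matrix.cons_val] at h2
  simp only [mn2]
  linear_combination h2

lemma Dep3.row {R : Type} [CommRing R] {x y z : Fin 4 → R} (h : Dep3 x y z) (a b : Fin 4)
    (v : Fin 4 → R) : mn2 x y a b * ∑ c, z c * v c =
      mn2 z y a b * ∑ c, x c * v c + mn2 x z a b * ∑ c, y c * v c := by
  rw [Finset.mul_sum, Finset.mul_sum, Finset.mul_sum, ← Finset.sum_add_distrib]
  refine Finset.sum_congr rfl fun c _ => ?_
  have := h a b c
  linear_combination v c * this

lemma Dep3.map {R S : Type} [CommRing R] [CommRing S] {x y z : Fin 4 → R} (h : Dep3 x y z)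
    (φ : R →+* S) : Dep3 (fun i => φ (x i)) (fun i => φ (y i)) (fun i => φ (z i)) := by
  intro a b c
  have := congrArg φ (h a b c)
  simp only [mn2, map_mul, map_add, map_sub] at this
  simp only [mn2]
  exact this

lemma exists_eval_ne {p : R3} (h : p ≠ 0) : ∃ x : Fin 3 → ℂ, eval x p ≠ 0 := by
  by_contra hcon
  push Not at hcon
  apply h
  apply MvPolynomial.funext
  intro x
  rw [hcon, map_zero]

lemma HRow.mn2 {D1 D2 : ℕ} {x y : Fin 4 → R3} (hx : HRow D1 x) (hy : HRow D2 y) (a b : Fin 4) :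
    (H631.mn2 x y a b).IsHomogeneous (D1 + D2 + wt a + wt b) := by
  refine IsHomogeneous.sub ?_ ?_
  · have := (hx a).mul (hy b)
    rwa [show D1 + wt a + (D2 + wt b) = D1 + D2 + wt a + wt b by ring] at this
  · have := (hx b).mul (hy a)
    rwa [show D1 + wt b + (D2 + wt a) = D1 + D2 + wt a + wt b by ring] at this

lemma HRow.comb {m : ℕ} {f : Fin 3 → Fin 4 → R3} (hf : ∀ j, HRow m (f j)) (c : Fin 3 → ℂ) :
    HRow m (fun i => ∑ j, C (c j) * f j i) := fun i =>
  IsHomogeneous.sum _ _ _ fun j _ => by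
    have := (isHomogeneous_C (Fin 3) (c j)).mul (hf j i)
    rwa [zero_add] at this

lemma exists_third (j1 j2 : Fin 3) (h : j1 ≠ j2) :
    ∃ j3, j3 ≠ j1 ∧ j3 ≠ j2 ∧ ∀ (X : Type) (_ : AddCommMonoid X) (F : Fin 3 → X),
        ∑ i, F i = F j1 + F j2 + F j3 := by
  obtain ⟨j3, h1, h2⟩ : ∃ j3, j3 ≠ j1 ∧ j3 ≠ j2 := by
    revert j1 j2
    decide
  refine ⟨j3, h1, h2, fun X _ F => ?_⟩
  have h3 : (Finset.univ : Finset (Fin 3)) = {j1, j2, j3} := by
    revert j1 j2 j3
    decide
  rw [h3, Finset.sum_insert (by simp [h, h1.symm]), Finset.sum_insert (by simpa using h2.symm),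
    Finset.sum_singleton, add_assoc]

theorem rank_two_e3 {M : Matrix (Fin 4) (Fin 4) R3} (hM : HMat M) {m : ℕ} (hm : 1 ≤ m) {g : R3}
    (hgp : Prime g) (hg : g.IsHomogeneous (2 * m + 1)) (hge : eval e3 g ≠ 0)
    {f : Fin 3 → Fin 4 → R3} (hf : ∀ j, HRow m (f j))
    (hLI : ∀ c : Fin 3 → ℂ, (∀ i, ∑ j, C (c j) * f j i = 0) → c = 0)
    (hdet : ∀ s : Fin 3 → Fin 4, (Matrix.of fun j k => f j (s k)).det = 0)
    (hv : ∀ v : Fin 4 → R3, (∀ j, g ∣ ∑ i, f j i * v i) → g ∣ qf M v)
    (j1 j2 : Fin 3) (a b : Fin 4) (hab : ¬ g ∣ mn2 (f j1) (f j2) a b)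
    (habe : eval e3 (mn2 (f j1) (f j2) a b) ≠ 0) : Iso M := by
  classical
  have hj : j1 ≠ j2 := by
    rintro rfl
    apply hab
    simp only [mn2, sub_self, mul_comm, dvd_zero]
  -- the three rows in the span
  have hspan : ∀ α : Matrix (Fin 3) (Fin 3) R3, Dep3 (fun i => ∑ j, α 0 j * f j i)
    (fun i => ∑ j, α 1 j * f j i) (fun i => ∑ j, α 2 j * f j i) := Dep3.of_det hdet
  have hsing : ∀ (j : Fin 3) i, ∑ l, (Pi.single j (1 : R3) : Fin 3 → R3) l * f l i = f j i := by
    intro j i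
    rw [Finset.sum_eq_single j]
    · simp
    · intro l _ hl
      rw [Pi.single_eq_of_ne hl, zero_mul]
    · simp
  -- the relation
  obtain ⟨d, hd, hd0⟩ : ∃ d : Fin 3 → R3, (∀ i, ∑ j, d j * f j i = 0) ∧ (fun j => eval e3 (d j)) ≠ 0 := by
    obtain ⟨j3, hne1, hne2, hj3⟩ := exists_third j1 j2 hj
    let d : Fin 3 → R3 := fun j => if j = j1 then - mn2 (f j3) (f j2) a b else
      if j = j2 then - mn2 (f j1) (f j3) a b else mn2 (f j1) (f j2) a b
    have d1 : d j1 = - mn2 (f j3) (f j2) a b := by simp [d]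
    have d2 : d j2 = - mn2 (f j1) (f j3) a b := by simp [d, hj.symm]
    have d3 : d j3 = mn2 (f j1) (f j2) a b := by simp [d, hne1, hne2]
    refine ⟨d, fun i => ?_, fun h0 => habe ?_⟩
    · rw [hj3, d1, d2, d3]
      have h1 := hspan (Matrix.of ![Pi.single j1 1, Pi.single j2 1, Pi.single j3 1]) a b i
      simp only [Matrix.of_apply, Matrix.cons_val_zero, Matrix.cons_val_one, Matrix.cons_val,
        hsing] at h1
      simp only [mn2] at h1 ⊢
      linear_combination h1
    · rw [← d3]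
      exact congrFun h0 j3
  set cc : Fin 3 → ℂ := fun j => eval e3 (d j) with hcc
  set f' : Fin 4 → R3 := fun i => ∑ j, C (cc j) * f j i with hf'
  have hf'H : HRow m f' := HRow.comb hf cc
  have hf'e : ∀ i, eval e3 (f' i) = 0 := by
    intro i
    have h1 := congrArg (eval e3) (hd i)
    rw [map_sum, map_zero] at h1
    rw [hf', map_sum, ← h1]
    refine Finset.sum_congr rfl fun j _ => ?_
    rw [map_mul, map_mul, eval_C]
  have hf'0 : ∃ i, f' i ≠ 0 := by
    by_contra hcon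
    push Not at hcon
    exact hd0 (hLI cc hcon)
  obtain ⟨i0, hi0⟩ := hf'0
  have hg0 := hgp.ne_zero
  have hgi0 : ¬ g ∣ f' i0 := not_dvd_of_lt hg hg0 (hf'H i0) hi0 (by have := wt_le i0; omega)
  -- the second row
  obtain ⟨l, a', b', hl⟩ : ∃ (l : Fin 3) (a' b' : Fin 4), ¬ g ∣ mn2 f' (f l) a' b' := by
    by_contra hcon
    push Not at hcon
    apply hab
    have h1 := hcon j1
    have h2 := hcon j2
    -- f' i0 * mn2 (f j1) (f j2) a b is a combination
    have h3 : f' i0 * mn2 (f j1) (f j2) a b =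
        mn2 f' (f j1) i0 a * f j2 b - mn2 f' (f j1) i0 b * f j2 a +
          f j1 i0 * mn2 f' (f j2) a b := by
      simp only [mn2]
      ring
    have h4 : g ∣ f' i0 * mn2 (f j1) (f j2) a b := by
      rw [h3]
      exact dvd_add (dvd_sub ((h1 _ _).mul_right _) ((h1 _ _).mul_right _)) ((h2 _ _).mul_left _)
    exact (hgp.dvd_or_dvd h4).resolve_left hgi0
  have hdep : ∀ j, Dep3 f' (f l) (f j) := by
    intro j
    have h1 := hspan (Matrix.of ![fun j => C (cc j), Pi.single l 1, Pi.single j 1])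
    simp only [Matrix.of_apply, Matrix.cons_val_zero, Matrix.cons_val_one, Matrix.cons_val,
        hsing] at h1
    exact h1
  have hvan : VanOn M f' (f l) g := by
    intro v h1 h2
    apply hv
    intro j
    have h3 := (hdep j).row a' b' v
    have h4 : g ∣ mn2 f' (f l) a' b' * ∑ c, f j c * v c := by
      rw [h3]
      exact dvd_add (h1.mul_left _) (h2.mul_left _)
    exact (hgp.dvd_or_dvd h4).resolve_left hl
  have hmn := hf'H.mn2 (hf l) a' b'
  have hpen0 : pen (mn2 f' (f l) a' b') ≠ 0 := by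
    intro h0
    apply hl
    rw [pen_inj hmn h0]
    exact dvd_zero _
  -- the functional
  have habe' : mn2 (fun i => eval e3 (f j1 i)) (fun i => eval e3 (f j2 i)) a b ≠ 0 := by
    simpa [mn2] using habe
  obtain ⟨ℓ, hℓ⟩ := exists_functional (M.map (eval e3)) _ _ a b habe'
  apply iso_of_pen hM
  refine core_e3 hM hm hgp hg hge hf'H hvan a' b' hmn hl (N := 2 * m) (r := 1)
    (Or.inr ⟨by omega, hf'e⟩) (fun _ => ℓ) (by omega) ?_
  intro v hvd h1 h2 h3
  -- all rows vanish on `v`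
  have hgd : (pen g).natDegree = 2 * m + 1 := by
    refine le_antisymm (pen_natDegree hg) (Polynomial.le_natDegree_of_ne_zero ?_)
    rw [pen_coeff hg]
    exact (map_ne_zero _).mpr hge
  have h4 : ∑ i, pen (f l i) * v i = 0 := by
    by_contra hne
    have h5 := Polynomial.natDegree_le_of_dvd h2 hne
    have h6 := (row_natDegree hm (hf l) hvd).1
    omega
  have h5 : ∀ j, ∑ i, pen (f j i) * v i = 0 := by
    intro j
    have h6 := ((hdep j).map pen).row a' b' v
    rw [h1, h4, mul_zero, mul_zero, add_zero] at h6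
    refine (mul_eq_zero.mp h6).resolve_left ?_
    intro h7
    apply hpen0
    rw [← h7]
    simp [mn2]
  have h6 : ∀ j, ∑ i, algebraMap ℂ FF (eval e3 (f j i)) * (v i).coeff (m - wt i) = 0 := by
    intro j
    rw [← (row_natDegree hm (hf j) hvd).2, h5, Polynomial.coeff_zero]
  refine ext_isotropic (Matrix.of ![fun i => eval e3 (f j1 i), fun i => eval e3 (f j2 i), ℓ]) _
    (fun z hz => hℓ z ?_ ?_ ?_) _ ?_
  · exact hz 0
  · exact hz 1
  · exact hz 2
  · intro j
    fin_cases j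
    · exact h6 j1
    · exact h6 j2
    · exact h3 0

lemma linr_inj {A : Matrix (Fin 3) (Fin 3) ℂ} (hA : IsUnit A.det) {p : R3} (h : linr A p = 0) :
    p = 0 := by
  rw [← linr_inv hA p, h, map_zero]

lemma linr_C (A : Matrix (Fin 3) (Fin 3) ℂ) (c : ℂ) : linr A (C c) = C c := by
  have := (lin A).commutes c
  exact this

lemma map_mn2 {R S : Type} [CommRing R] [CommRing S] (φ : R →+* S) (r1 r2 : Fin 4 → R)
    (a b : Fin 4) : mn2 (fun i => φ (r1 i)) (fun i => φ (r2 i)) a b = φ (mn2 r1 r2 a b) := by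
  simp [mn2]

theorem rank_two {M : Matrix (Fin 4) (Fin 4) R3} (hM : HMat M) {m : ℕ} (hm : 1 ≤ m) {g : R3}
    (hgp : Prime g) (hg : g.IsHomogeneous (2 * m + 1))
    {f : Fin 3 → Fin 4 → R3} (hf : ∀ j, HRow m (f j))
    (hLI : ∀ c : Fin 3 → ℂ, (∀ i, ∑ j, C (c j) * f j i = 0) → c = 0)
    (hdet : ∀ s : Fin 3 → Fin 4, (Matrix.of fun j k => f j (s k)).det = 0)
    (hv : ∀ v : Fin 4 → R3, (∀ j, g ∣ ∑ i, f j i * v i) → g ∣ qf M v)
    (j1 j2 : Fin 3) (a b : Fin 4) (hab : ¬ g ∣ mn2 (f j1) (f j2) a b) : Iso M := by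
  have hne : g * mn2 (f j1) (f j2) a b ≠ 0 := by
    refine mul_ne_zero hgp.ne_zero ?_
    intro h0
    exact hab (h0 ▸ dvd_zero _)
  obtain ⟨p, hp⟩ := exists_eval_ne hne
  rw [map_mul] at hp
  have hpg := left_ne_zero_of_mul hp
  have hpm := right_ne_zero_of_mul hp
  have hp0 : p ≠ 0 := by
    rintro rfl
    apply hpg
    have h1 := aeval_smul_of_homog hg (A := ℂ) (0 : ℂ) (0 : Fin 3 → ℂ)
    rw [zero_smul, MvPolynomial.aeval_eq_eval] at h1
    have h2 : eval (0 : Fin 3 → ℂ) g = 0 ^ (2 * m + 1) * eval (0 : Fin 3 → ℂ) g := h1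
    rw [h2, pow_succ]
    ring
  obtain ⟨A, hA, hAp⟩ := exists_move hp0
  apply iso_of_linr hA
  refine rank_two_e3 (hM.linr A) hm (g := linr A g) ((prime_lin hA).mpr hgp) (lin_homogeneous A hg)
    (by rw [eval_linr hAp]; exact hpg) (f := fun j i => linr A (f j i)) (fun j => (hf j).linr A)
    ?_ ?_ ?_ j1 j2 a b ?_ ?_
  · intro c hc
    apply hLI c
    intro i
    apply linr_inj hA
    rw [map_sum, ← hc i]
    exact Finset.sum_congr rfl fun j _ => by rw [map_mul, linr_C]
  · intro s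
    have h1 := congrArg (linr A) (hdet s)
    rw [map_zero, RingHom.map_det] at h1
    exact h1
  · intro v h1
    have hvv : v = fun i => linr A (linr A⁻¹ (v i)) := by
      funext i
      exact (linr_inv' hA _).symm
    rw [hvv] at h1 ⊢
    simp only [← map_mul, ← map_sum] at h1
    simp only [linr_dvd hA] at h1
    rw [← map_qf', linr_dvd hA]
    exact hv _ h1
  · rw [map_mn2, linr_dvd hA]
    exact hab
  · rw [map_mn2, eval_linr hAp]
    exact hpm

end Vale.Agent.P287.H631
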