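import Vale.Agent.P287.Theta.ChartGlue
import Vale.Agent.P287.Theta.LinChange
import Vale.Agent.P287.H631.Family

/-!
Restriction of homogeneous polynomials to the generic line through the point `(0 : 0 : 1)`.
-/

open MvPolynomial

namespace Vale.Agent.P287.H631

open Vale.Agent.P287 Vale.Agent.P287.Theta Vale.Agent.P287.H925

lemma cr_top {p : R3} {k : ℕ} (hp : p.IsHomogeneous k) :
    (cr p).natDegree ≤ k ∧ (cr p).coeff k = Polynomial.C (eval ![0, 0, 1] p) := by
  classical
  have key : ∀ d ∈ p.support, (cr (monomial d (coeff d p))).natDegree ≤ k ∧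
      (cr (monomial d (coeff d p))).coeff k =
        Polynomial.C (eval ![0, 0, 1] (monomial d (coeff d p))) := by
    intro d hd
    have h1 : d 0 + d 1 + d 2 = k := by
      have := hp (mem_support_iff.mp hd)
      rw [Finsupp.weight_apply, Finsupp.sum_fintype _ _ (by simp)] at this
      simpa [Fin.sum_univ_three] using this
    have h2 : cr (monomial d (coeff d p)) =
        Polynomial.C (Polynomial.C (coeff d p) * Polynomial.X ^ d 1) * Polynomial.X ^ d 2 := by
      rw [cr_eq, aeval_monomial, Finsupp.prod_fintype _ _ (by simp), Fin.prod_univ_three]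
      simp [Polynomial.algebraMap_apply, mul_assoc]
    have h3 : eval ![0, 0, 1] (monomial d (coeff d p)) =
        coeff d p * ((0 : ℂ) ^ d 0 * (0 : ℂ) ^ d 1) := by
      rw [eval_monomial, Finsupp.prod_fintype _ _ (by simp), Fin.prod_univ_three]
      simp
    rw [h2, h3]
    refine ⟨(Polynomial.natDegree_C_mul_X_pow_le _ _).trans (by omega), ?_⟩
    rw [Polynomial.coeff_C_mul_X_pow]
    by_cases h4 : k = d 2
    · have h5 : d 0 = 0 := by omega
      have h6 : d 1 = 0 := by omega
      rw [if_pos h4, h5, h6]
      simp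
    · rw [if_neg h4]
      have h5 : d 0 ≠ 0 ∨ d 1 ≠ 0 := by omega
      rcases h5 with h5 | h5 <;> simp [h5]
  have hs := p.as_sum
  constructor
  · conv_lhs => rw [hs]
    rw [map_sum]
    exact Polynomial.natDegree_sum_le_of_forall_le _ _ fun d hd => (key d hd).1
  · conv_lhs => rw [hs]
    conv_rhs => rw [hs]
    rw [map_sum, map_sum, map_sum, Polynomial.finsetSum_coeff]
    exact Finset.sum_congr rfl fun d hd => (key d hd).2

/-- The restriction to the generic line through `(0 : 0 : 1)`. -/
noncomputable def pen : R3 →+* Polynomial FF := crF.comp (cr : R3 →+* Polynomial (Polynomial ℂ))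

lemma pen_apply (p : R3) : pen p = crF (cr p) := rfl

lemma pen_natDegree {p : R3} {k : ℕ} (hp : p.IsHomogeneous k) : (pen p).natDegree ≤ k :=
  Polynomial.natDegree_map_le.trans (cr_top hp).1

lemma pen_coeff {p : R3} {k : ℕ} (hp : p.IsHomogeneous k) :
    (pen p).coeff k = algebraMap ℂ FF (eval ![0, 0, 1] p) := by
  change ((cr p).map (algebraMap (Polynomial ℂ) FF)).coeff k = _
  rw [Polynomial.coeff_map, (cr_top hp).2, IsScalarTower.algebraMap_apply ℂ (Polynomial ℂ) FF]
  rfl

lemma pen_inj {p : R3} {k : ℕ} (hp : p.IsHomogeneous k) (h : pen p = 0) : p = 0 := by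
  apply cr_inj hp
  apply crF_injective
  rw [map_zero]
  exact h

end Vale.Agent.P287.H631
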