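import Vale.Agent.P287.H631.Pen.Core

/-!
From isotropic vectors over the generic line to homogeneous isotropic vectors; linear changes of
coordinates.
-/

open MvPolynomial

namespace Vale.Agent.P287.H631

open Vale.Agent.P287 Vale.Agent.P287.Theta Vale.Agent.P287.H925

/-- The chart as a ring homomorphism. -/
noncomputable def crr : R3 →+* Polynomial (Polynomial ℂ) := (cr : R3 →+* Polynomial (Polynomial ℂ))

lemma pen_eq : pen = crF.comp crr := rfl

theorem iso_of_pen {M : Matrix (Fin 4) (Fin 4) R3} (hM : HMat M)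
    (h : ∃ v : Fin 4 → Polynomial FF, v ≠ 0 ∧ qf (M.map pen) v = 0) : Iso M := by
  classical
  obtain ⟨v, hv0, hv⟩ := h
  -- clear denominators
  choose b q hb hbq using fun i => exists_crF (v i)
  let u : Fin 4 → Polynomial (Polynomial ℂ) := fun i =>
    (∏ j ∈ Finset.univ.erase i, Polynomial.C (b j)) * q i
  have hC : ∀ x : Polynomial ℂ, crF (Polynomial.C x) = Polynomial.C (algebraMap _ FF x) := by
    intro x
    change (Polynomial.C x).map _ = _
    rw [Polynomial.map_C]
  have hu : ∀ i, crF (u i) = crF (∏ j, Polynomial.C (b j)) * v i := by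
    intro i
    rw [map_mul, ← hbq i, ← Finset.mul_prod_erase Finset.univ (fun j => Polynomial.C (b j))
      (Finset.mem_univ i), map_mul, hC]
    ring
  have hc0 : (∏ j, Polynomial.C (b j) : Polynomial (Polynomial ℂ)) ≠ 0 :=
    Finset.prod_ne_zero_iff.mpr fun j _ => (Polynomial.C_ne_zero).mpr (hb j)
  have hc0' : crF (∏ j, Polynomial.C (b j)) ≠ 0 := by
    rw [Ne, map_eq_zero_iff _ crF_injective]
    exact hc0
  have hu0 : u ≠ 0 := by
    intro h0
    apply hv0
    funext i
    have h1 := hu i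
    rw [h0, Pi.zero_apply, map_zero] at h1
    exact (mul_eq_zero.mp h1.symm).resolve_left hc0'
  have hqu : qf (M.map crr) u = 0 := by
    apply crF_injective
    rw [map_zero, map_qf' crF]
    have h1 : (M.map crr).map crF = M.map pen := by
      rw [Matrix.map_map]
      rfl
    have h2 : (fun i => crF (u i)) = crF (∏ j, Polynomial.C (b j)) • v := by
      funext i
      exact hu i
    rw [h1, h2, qf_smul, hv, mul_zero]
  -- homogenise
  choose d hd using fun i => exists_homogenisation (crTo (u i))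
  let e := ∑ i, d i
  have hde : ∀ i, d i ≤ e + vt i := fun i =>
    (Finset.single_le_sum (fun _ _ => Nat.zero_le _) (Finset.mem_univ i)).trans (Nat.le_add_right _ _)
  choose w hw hw' using fun i => hd i (e + vt i) (hde i)
  have hcw : ∀ i, crr (w i) = u i := by
    intro i
    change crInv (dehom (w i)) = u i
    rw [hw', crInv_crTo]
  refine ⟨e, w, ?_, hw, ?_⟩
  · intro h0
    apply hu0
    funext i
    rw [← hcw, h0, Pi.zero_apply, map_zero, Pi.zero_apply]
  · have hhom : (qf M w).IsHomogeneous (2 * e + 3) := by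
      refine IsHomogeneous.sum _ _ _ fun i _ => IsHomogeneous.sum _ _ _ fun j _ => ?_
      have h1 := (hM i j).mul ((hw i).mul (hw j))
      have h2 : 1 + wt i + wt j + (e + vt i + (e + vt j)) = 2 * e + 3 := by
        have := wt_add_vt i
        have := wt_add_vt j
        omega
      rw [h2] at h1
      exact h1
    apply cr_inj hhom
    change crr (qf M w) = 0
    rw [map_qf' crr]
    simp only [hcw]
    exact hqu

/-- Linear change of coordinates. -/
noncomputable def linr (A : Matrix (Fin 3) (Fin 3) ℂ) : R3 →+* R3 := (lin A : R3 →+* R3)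

lemma linr_apply (A : Matrix (Fin 3) (Fin 3) ℂ) (p : R3) : linr A p = lin A p := rfl

lemma linr_inv {A : Matrix (Fin 3) (Fin 3) ℂ} (hA : IsUnit A.det) (p : R3) :
    linr A⁻¹ (linr A p) = p := by
  rw [linr_apply, linr_apply, lin_lin, Matrix.mul_nonsing_inv _ hA, lin_one]

lemma linr_inv' {A : Matrix (Fin 3) (Fin 3) ℂ} (hA : IsUnit A.det) (p : R3) :
    linr A (linr A⁻¹ p) = p := by
  rw [linr_apply, linr_apply, lin_lin, Matrix.nonsing_inv_mul _ hA, lin_one]

lemma linr_dvd {A : Matrix (Fin 3) (Fin 3) ℂ} (hA : IsUnit A.det) {p q : R3} :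
    linr A p ∣ linr A q ↔ p ∣ q := lin_dvd_lin hA

lemma HMat.linr {M : Matrix (Fin 4) (Fin 4) R3} (h : HMat M) (A : Matrix (Fin 3) (Fin 3) ℂ) :
    HMat (M.map (linr A)) := fun i j => lin_homogeneous A (h i j)

lemma HRow.linr {D : ℕ} {r : Fin 4 → R3} (h : HRow D r) (A : Matrix (Fin 3) (Fin 3) ℂ) :
    HRow D (fun i => linr A (r i)) := fun i => lin_homogeneous A (h i)

lemma iso_of_linr {M : Matrix (Fin 4) (Fin 4) R3} {A : Matrix (Fin 3) (Fin 3) ℂ}
    (hA : IsUnit A.det) (h : Iso (M.map (linr A))) : Iso M := by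
  obtain ⟨e, w, hw0, hw, hq⟩ := h
  refine ⟨e, fun i => linr A⁻¹ (w i), ?_, fun i => lin_homogeneous _ (hw i), ?_⟩
  · intro h0
    apply hw0
    funext i
    have h1 := congrFun h0 i
    have h2 := linr_inv' hA (w i)
    rw [← h2]
    change linr A⁻¹ (w i) = 0 at h1
    rw [h1, map_zero]
    rfl
  · have h1 := map_qf' (linr A⁻¹) (M.map (linr A)) w
    rw [hq, map_zero] at h1
    rw [h1, Matrix.map_map]
    congr 1
    ext1 i j
    exact (linr_inv hA _).symm

lemma VanOn.linr {M : Matrix (Fin 4) (Fin 4) R3} {r1 r2 : Fin 4 → R3} {g : R3}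
    (h : VanOn M r1 r2 g) {A : Matrix (Fin 3) (Fin 3) ℂ} (hA : IsUnit A.det) :
    VanOn (M.map (linr A)) (fun i => H631.linr A (r1 i)) (fun i => H631.linr A (r2 i))
      (H631.linr A g) := by
  intro v h1 h2
  have hv : v = fun i => H631.linr A (H631.linr A⁻¹ (v i)) := by
    funext i
    exact (linr_inv' hA _).symm
  rw [hv] at h1 h2 ⊢
  simp only [← map_mul, ← map_sum] at h1 h2
  rw [linr_dvd hA] at h1 h2
  rw [← map_qf', linr_dvd hA]
  exact h _ h1 h2

/-- Any point can be moved to `(0 : 0 : 1)`. -/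
lemma exists_move {p : Fin 3 → ℂ} (hp : p ≠ 0) :
    ∃ A : Matrix (Fin 3) (Fin 3) ℂ, IsUnit A.det ∧ A.mulVec e3 = p := by
  by_cases h2 : p 2 = 0
  · by_cases h1 : p 1 = 0
    · have h0 : p 0 ≠ 0 := by
        intro h0
        apply hp
        funext i
        fin_cases i <;> simp [h0, h1, h2]
      refine ⟨!![0, 0, p 0; 0, 1, 0; 1, 0, 0], ?_, ?_⟩
      · simpa [Matrix.det_fin_three] using h0
      · funext i
        fin_cases i <;> simp [e3, Matrix.mulVec, dotProduct, Fin.sum_univ_three, h1, h2]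
    · refine ⟨!![1, 0, p 0; 0, 0, p 1; 0, 1, 0], ?_, ?_⟩
      · simpa [Matrix.det_fin_three] using h1
      · funext i
        fin_cases i <;> simp [e3, Matrix.mulVec, dotProduct, Fin.sum_univ_three, h2]
  · refine ⟨!![1, 0, p 0; 0, 1, p 1; 0, 0, p 2], ?_, ?_⟩
    · simpa [Matrix.det_fin_three] using h2
    · funext i
      fin_cases i <;> simp [e3, Matrix.mulVec, dotProduct, Fin.sum_univ_three]

lemma eval_linr {A : Matrix (Fin 3) (Fin 3) ℂ} {p : Fin 3 → ℂ} (h : A.mulVec e3 = p) (q : R3) :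
    eval e3 (linr A q) = eval p q := by
  rw [linr_apply, eval_lin, h]

/-- A homogeneous isotropic vector gives an isotropic vector over `ℂ(s₀, s₁)`. -/
theorem Iso.ratK {M : Matrix (Fin 4) (Fin 4) R3} (h : Iso M) :
    ∃ v : Fin 4 → RatK, v ≠ 0 ∧ qf (M.map (aeval tvec : R3 →ₐ[ℂ] RatK)) v = 0 := by
  obtain ⟨e, w, hw0, hw, hq⟩ := h
  refine ⟨fun i => aeval tvec (w i), ?_, ?_⟩
  · intro h0
    apply hw0
    funext i
    have h1 : aeval tvec (w i) = 0 := congrFun h0 i
    rw [← crMap_cr] at h1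
    apply cr_inj (hw i)
    apply crMap_injective
    rw [h1, map_zero]
  · have h1 := map_qf' ((aeval tvec : R3 →ₐ[ℂ] RatK) : R3 →+* RatK) M w
    rw [hq, map_zero] at h1
    exact h1.symm

end Vale.Agent.P287.H631
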