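import Vale.Agent.P287.H631.Pen.Main

/-!
Application to cubic forms: three forms vanishing on the scroll which are linearly independent over
`ℂ` are linearly independent over `ℂ(s₀, s₁)`, unless the cubic is rational.
-/

open MvPolynomial

namespace Vale.Agent.P287.H631

open Vale.Agent.P287 Vale.Agent.P287.Theta Vale.Agent.P287.H925

lemma wvec_homog (i : Fin 4) (a : Fin 6) :
    (wvec (X : Fin 3 → R3) (Pi.single i 1) a).IsHomogeneous (wt i) := by
  fin_cases i <;> fin_cases a <;> simp [wvec, wt, isHomogeneous_X, isHomogeneous_zero,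
    isHomogeneous_one]

lemma HMat_QR (B : Fin 3 → Matrix (Fin 6) (Fin 6) ℂ) : HMat (QR B) := by
  intro i j
  refine IsHomogeneous.sum _ _ _ fun k _ => ?_
  have h1 : (∑ a, ∑ b, C (B k a b) * ((wvec (X : Fin 3 → R3) (Pi.single i 1) a) *
      (wvec (X : Fin 3 → R3) (Pi.single j 1) b))).IsHomogeneous (wt i + wt j) := by
    refine IsHomogeneous.sum _ _ _ fun a _ => IsHomogeneous.sum _ _ _ fun b _ => ?_
    have := (isHomogeneous_C (Fin 3) (B k a b)).mul ((wvec_homog i a).mul (wvec_homog j b))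
    rwa [zero_add] at this
  have := (isHomogeneous_X ℂ k).mul h1
  rwa [← add_assoc] at this

theorem rational_of_iso (B : Fin 3 → Matrix (Fin 6) (Fin 6) ℂ) (hsm : SmoothForm (cubic B))
    (h : Iso (QR B)) :
    Nonempty (FractionRing (MvPolynomial (Fin 5) ℂ ⧸ Ideal.span {chart (cubic B)}) ≃ₐ[ℂ]
      FractionRing (MvPolynomial (Fin 4) ℂ)) := by
  have nd := nondegenerate_of_smooth B hsm
  have hp := prime_of_smooth B hsm
  obtain ⟨v, hv0, hv⟩ := h.ratK
  rw [qf_QR] at hv
  refine rational_of_isotropic B hp nd v hv0 ?_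
  rw [qf_qmat]
  simpa using hv

/-- Complex linear independence is enough. -/
theorem rational_or_indep (B : Fin 3 → Matrix (Fin 6) (Fin 6) ℂ) (hsm : SmoothForm (cubic B))
    {m : ℕ} (hm : 1 ≤ m) {g : R3} (hgp : Prime g) (hg : g.IsHomogeneous (2 * m + 1))
    {κ : Type} [Field κ] [Algebra ℂ κ] (τ : Fin 3 → κ)
    (hτ : ∀ p : R3, aeval τ p = 0 ↔ g ∣ p) (W : Submodule κ (Fin 4 → κ))
    (hW : Module.finrank κ W = 2) (hWq : ∀ w ∈ W, net B τ (wvec τ w) = 0)
    (hW0 : ∃ w ∈ W, w 0 ≠ 0)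
    {a : Fin 3 → Fin 3 → R3} {b : Fin 3 → R3}
    (ha : ∀ j i, (a j i).IsHomogeneous m) (hb : ∀ j, (b j).IsHomogeneous (m + 1))
    (hWN : ∀ w ∈ W, ∀ j, aeval τ (b j) * w 0 + ∑ i, aeval τ (a j i) * w i.succ = 0)
    (hLI : ∀ c : Fin 3 → ℂ, ∑ j, c j • b j = 0 → (∀ i, ∑ j, c j • a j i = 0) → c = 0)
    {D : ℕ} {a' : Fin 2 → Fin 3 → R3} {b' : Fin 2 → R3}
    (ha' : ∀ j i, (a' j i).IsHomogeneous D) (hb' : ∀ j, (b' j).IsHomogeneous (D + 1))
    (hWN' : ∀ w ∈ W, ∀ j, aeval τ (b' j) * w 0 + ∑ i, aeval τ (a' j i) * w i.succ = 0)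
    (hI : LinearIndependent κ fun (l : Fin 2) =>
      (Fin.cons (aeval τ (b' l)) (fun i => aeval τ (a' l i)) : Fin 4 → κ)) :
    LinearIndependent RatK (fun j => ((Nm a b).map (aeval tvec : R3 →ₐ[ℂ] RatK)) j) ∨
    Nonempty (FractionRing (MvPolynomial (Fin 5) ℂ ⧸ Ideal.span {chart (cubic B)}) ≃ₐ[ℂ]
      FractionRing (MvPolynomial (Fin 4) ℂ)) := by
  classical
  have hws : ∀ i : Fin 3, wt i.succ = 0 := by decide
  have h := indep_or_iso (HMat_QR B) hm hgp hg τ hτ W hW (fun w hw => by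
      rw [qf_QR]
      exact hWq w hw) hW0 (f := fun j => Fin.cons (b j) (a j)) (fun j i => by
      refine Fin.cases ?_ (fun i => ?_) i
      · exact hb j
      · rw [hws]
        exact ha j i) (fun j w hw => by
      rw [Fin.sum_univ_succ]
      exact hWN w hw j) (fun c hc => hLI c (by
        have := hc 0
        simpa [smul_eq_C_mul] using this) fun i => by
        have := hc i.succ
        simpa [smul_eq_C_mul] using this) (D := D) (ψ := fun l => Fin.cons (b' l) (a' l))
      (fun j i => by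
      refine Fin.cases ?_ (fun i => ?_) i
      · exact hb' j
      · rw [hws]
        exact ha' j i) (fun j w hw => by
      rw [Fin.sum_univ_succ]
      exact hWN' w hw j) (by
        convert hI using 2 with l
        funext i
        refine Fin.cases ?_ (fun i => ?_) i <;> rfl)
  rcases h with h | h
  · left
    exact h
  · right
    exact rational_of_iso B hsm h

end Vale.Agent.P287.H631
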